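import Vale.Agent.N160.Expose
import Vale.Agent.P160.Half.Corank

/-! # P160: covering the event of a structured kernel vector -/

open Finset Matrix

namespace Vale.Agent.N160

open Vale.Agent.P160 Vale.Agent.P160.H462

/-- greedy choice of functionals -/
theorem greedy {V ρ : Type} [AddCommGroup V] [Module ℝ V] [FiniteDimensional ℝ V] [DecidableEq ρ]
    (f : ρ → V →ₗ[ℝ] ℝ) (P : Finset ρ) (m : ℕ) : ∀ U : Submodule ℝ V, Module.finrank ℝ U ≤ m →
    ∃ R ⊆ P, R.card ≤ m ∧ ∀ w ∈ U, (∀ s ∈ R, f s w = 0) → ∀ s ∈ P, f s w = 0 := by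
  induction m with
  | zero =>
    intro U hU
    refine ⟨∅, empty_subset _, by simp, fun w hw _ s _ => ?_⟩
    have h0 : U = ⊥ := Submodule.finrank_eq_zero.1 (Nat.le_zero.1 hU)
    rw [h0, Submodule.mem_bot] at hw
    rw [hw, map_zero]
  | succ m ih =>
    intro U hU
    by_cases h0 : ∀ w ∈ U, ∀ s ∈ P, f s w = 0
    · exact ⟨∅, empty_subset _, by simp, fun w hw _ => h0 w hw⟩
    · push Not at h0
      obtain ⟨w, hwU, s, hsP, hs⟩ := h0
      have hlt : U ⊓ LinearMap.ker (f s) < U := by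
        refine lt_of_le_of_ne inf_le_left fun he => hs ?_
        have : w ∈ U ⊓ LinearMap.ker (f s) := by rw [he]; exact hwU
        exact this.2
      have hfr := Submodule.finrank_lt_finrank_of_lt hlt
      obtain ⟨R, hR0, hR, hR2⟩ := ih (U ⊓ LinearMap.ker (f s)) (by omega)
      refine ⟨insert s R, insert_subset hsP hR0, (card_insert_le _ _).trans (by omega),
        fun v hv h => ?_⟩
      exact hR2 v ⟨hv, h s (mem_insert_self _ _)⟩ fun t ht => h t (mem_insert_of_mem ht)

variable {n : ℕ}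

theorem finrank_le_of_det (U : Submodule ℝ (Fin n → ℝ)) (B : Finset (Fin n))
    (h : ∀ u ∈ U, (∀ j ∈ B, u j = 0) → u = 0) : Module.finrank ℝ U ≤ B.card := by
  let g : U →ₗ[ℝ] (B → ℝ) := LinearMap.pi fun j : B => (LinearMap.proj (j : Fin n)).comp U.subtype
  have hg : Function.Injective g := by
    rw [← LinearMap.ker_eq_bot, LinearMap.ker_eq_bot']
    intro w hw
    exact Subtype.ext (h w w.2 fun j hj => congrFun hw ⟨j, hj⟩)
  have := LinearMap.finrank_le_finrank_of_injective hg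
  rwa [Module.finrank_fintype_fun_eq_card, Fintype.card_coe] at this

/-- all principal submatrices have corank at most `k` -/
def Good (k : ℕ) (b : Bits n) : Prop := ∀ T : Finset (Fin n), ∃ B : Finset (Fin n), B.card ≤ k ∧
  ∀ u : Fin n → ℝ, (∀ j, j ∉ T → u j = 0) → (∀ j ∈ B, u j = 0) → (∀ i ∈ T, (mat b *ᵥ u) i = 0) → u = 0

/-- the block on `B` is determined by the rest -/
def Det (A B : Finset (Fin n)) : Set (Bits n) := {b | (Half.prin (mat b) A).det ≠ 0 ∧
  ∀ i ∈ B, ∀ j ∈ B, (Half.prin (mat b) A).det * mat b i j = Half.schur (mat b) A i j}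

theorem mu_det (A B : Finset (Fin n)) (hAB : Disjoint A B) :
    mu (Det A B) * 2 ^ ((B.card + 1).choose 2) ≤ 1 := by
  classical
  have h := expose_det B.sym2 Set.univ (Det A B) (fun _ _ _ => trivial) fun b hb b' hb' hbb e he => by
    have h1 : ∀ a ∈ A, ∀ i, mat b a i = mat b' a i := fun a ha i =>
      mat_congr (hbb _ fun hm => disjoint_left.1 hAB ha (Finset.mk_mem_sym2_iff.1 hm).1)
    have h2 : Half.prin (mat b) A = Half.prin (mat b') A := by
      ext x y
      exact h1 x x.2 y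
    have h3 : ∀ i j, Half.schur (mat b) A i j = Half.schur (mat b') A i j := by
      intro i j
      unfold Half.schur
      rw [h2]
      have h4 : (fun a : A => mat b i a) = fun a : A => mat b' i a := by
        funext a
        rw [mat_symm b, mat_symm b', h1 a a.2]
      have h5 : (fun a : A => mat b a j) = fun a : A => mat b' a j := by
        funext a
        rw [h1 a a.2]
      rw [h4, h5]
    induction e using Sym2.ind with
    | _ i j =>
      obtain ⟨hi, hj⟩ := Finset.mk_mem_sym2_iff.1 he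
      have h6 := hb.2 i hi j hj
      have h7 := hb'.2 i hi j hj
      rw [h3, ← h7, h2] at h6
      exact bit_of_mat (mul_left_cancel₀ hb'.1 h6)
  rw [Set.univ_inter, mu_univ, Finset.card_sym2] at h
  exact h

theorem mu_not_good (k : ℕ) (hk : 8 * n ≤ k ^ 2) : mu {b : Bits n | ¬ Good k b} ≤ (1 / 4) ^ n := by
  classical
  set X : Finset (Finset (Fin n) × Finset (Fin n)) :=
    univ.filter fun x => Disjoint x.1 x.2 ∧ k ≤ x.2.card with hX
  have hsub : {b : Bits n | ¬ Good k b} ⊆ {b | ∃ x ∈ X, b ∈ Det x.1 x.2} := by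
    intro b hb
    have hb' : ¬ Good k b := hb
    unfold Good at hb'
    push Not at hb'
    obtain ⟨T, hT⟩ := hb'
    obtain ⟨A, hAT, -, hdet, hA⟩ := Half.exists_base (mat b) (mat_symm b) T
    refine ⟨(A, T \ A), mem_filter.2 ⟨mem_univ _, disjoint_sdiff, ?_⟩, hdet, fun i hi j hj =>
      hA i (mem_sdiff.1 hi).1 j (mem_sdiff.1 hj).1⟩
    by_contra hlt
    obtain ⟨u, h1, h2, h3, h4⟩ := hT (T \ A) (not_le.1 hlt).le
    have h5 : ∀ j, j ∉ A → u j = 0 := fun j hj => by
      by_cases hjT : j ∈ T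
      · exact h2 j (mem_sdiff.2 ⟨hjT, hj⟩)
      · exact h1 j hjT
    have h6 : Half.prin (mat b) A *ᵥ (fun a : A => u a) = 0 := by
      funext i
      have h7 := h3 i (hAT i.2)
      rw [Matrix.mulVec, dotProduct, ← sum_add_sum_compl A,
        sum_eq_zero (s := Aᶜ) (fun j hj => by rw [h5 j (mem_compl.1 hj), mul_zero]), add_zero,
        ← sum_coe_sort A] at h7
      exact h7
    have h8 := Matrix.eq_zero_of_mulVec_eq_zero hdet h6
    refine h4 (funext fun j => ?_)
    by_cases hj : j ∈ A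
    · exact congrFun h8 ⟨j, hj⟩
    · exact h5 j hj
  have h1 := mu_biUnion X (fun x => Det x.1 x.2) ((1 / 2) ^ (4 * n)) fun x hx => by
    obtain ⟨hd, hk2⟩ := (mem_filter.1 hx).2
    have h2 := mu_det x.1 x.2 hd
    have h3 : 4 * n ≤ (x.2.card + 1).choose 2 := by
      rw [Nat.choose_two_right, Nat.le_div_iff_mul_le (by norm_num), Nat.add_sub_cancel]
      nlinarith
    have h4 : (2 : ℝ) ^ (4 * n) ≤ 2 ^ ((x.2.card + 1).choose 2) := pow_le_pow_right₀ (by norm_num) h3
    rw [one_div, inv_pow, ← one_div, le_div_iff₀ (by positivity)]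
    exact (mul_le_mul_of_nonneg_left h4 (mu_nonneg _)).trans h2
  have h5 : (X.card : ℝ) ≤ 4 ^ n := by
    have : X.card ≤ 4 ^ n := by
      refine (card_le_univ _).trans ?_
      rw [Fintype.card_prod, Fintype.card_finset, Fintype.card_fin, ← mul_pow]
      norm_num
    exact_mod_cast this
  refine (mu_mono hsub).trans (h1.trans ?_)
  calc (X.card : ℝ) * (1 / 2) ^ (4 * n) ≤ 4 ^ n * (1 / 2) ^ (4 * n) :=
        mul_le_mul_of_nonneg_right h5 (by positivity)
    _ = (1 / 4) ^ n := by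
        rw [pow_mul, ← mul_pow]
        norm_num

/-- the candidates for the kernel vector -/
def Kset (W : Submodule ℝ (Fin n → ℝ)) (S R : Finset (Fin n)) (Φ : Set (Fin n → ℝ)) (b : Bits n) :
    Set (Fin n → ℝ) :=
  {u | u ∈ W ∧ (∀ i, (i ∉ S ∨ i ∈ R) → (mat b *ᵥ u) i = 0) ∧ u ∈ Φ}

/-- every candidate is orthogonal to the rows in `I` -/
def Ev (W : Submodule ℝ (Fin n → ℝ)) (S R I : Finset (Fin n)) (Φ : Set (Fin n → ℝ)) : Set (Bits n) :=
  {b | (Kset W S R Φ b).Nonempty ∧ ∀ u ∈ Kset W S R Φ b, ∀ i ∈ I, (mat b *ᵥ u) i = 0}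

theorem mu_Ev (W : Submodule ℝ (Fin n → ℝ)) (S R I J : Finset (Fin n)) (Φ : Set (Fin n → ℝ)) (ρ : ℝ)
    (hρ : 0 ≤ ρ) (hΦ : ∀ u ∈ Φ, LO J u ρ) (hIJ : Disjoint I J)
    (hI : ∀ i ∈ I, i ∈ S ∧ i ∉ R) (hW : ∀ i ∈ J, (i ∉ S ∨ i ∈ R) → ∀ j ∈ I, ∀ u ∈ W, u j = 0) :
    mu (Ev W S R I Φ) ≤ ρ ^ I.card := by
  classical
  rcases Φ.eq_empty_or_nonempty with hne | ⟨u₀, hu₀⟩
  · have h1 : Ev W S R I Φ = ∅ := Set.eq_empty_of_forall_notMem fun b hb => by
      obtain ⟨u, hu⟩ := hb.1
      have h2 := hu.2.2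
      rw [hne] at h2
      exact h2
    rw [h1, mu_eq]
    simpa using pow_nonneg hρ _
  let c : Set (Fin n → ℝ) → Fin n → ℝ := fun K => if h : K.Nonempty then h.some else u₀
  have hrow : ∀ b b' : Bits n, (∀ e, ¬ Cross I J e → b e = b' e) → ∀ u ∈ W, ∀ i, (i ∉ S ∨ i ∈ R) →
      (mat b *ᵥ u) i = (mat b' *ᵥ u) i := by
    intro b b' h u hu i hi
    simp only [Matrix.mulVec, dotProduct]
    refine sum_congr rfl fun j _ => ?_
    by_cases hc : Cross I J s(i, j)
    · obtain ⟨i', hi', j', hj', he⟩ := hc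
      rcases Sym2.eq_iff.1 he with ⟨h1, -⟩ | ⟨h1, h2⟩
      · subst h1
        rcases hi with hi | hi
        · exact absurd (hI _ hi').1 hi
        · exact absurd hi (hI _ hi').2
      · subst h1 h2
        rw [hW _ hj' hi _ hi' u hu, mul_zero, mul_zero]
    · rw [mat_congr (h _ hc)]
  have hK : ∀ b b' : Bits n, (∀ e, ¬ Cross I J e → b e = b' e) → Kset W S R Φ b = Kset W S R Φ b' := by
    intro b b' h
    ext u
    refine and_congr_right fun hu => and_congr_left fun _ => forall_congr' fun i =>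
      forall_congr' fun hi => ?_
    rw [hrow b b' h u hu i hi]
  refine le_trans (mu_mono ?_) (many_rows I J hIJ (fun b => c (Kset W S R Φ b)) ρ hρ
    (fun b b' h => by simp only [hK b b' h]) fun b => ?_)
  · intro b hb i hi
    refine hb.2 _ ?_ i hi
    simp only [c, dif_pos hb.1]
    exact hb.1.some_mem
  · by_cases h : (Kset W S R Φ b).Nonempty
    · simp only [c, dif_pos h]
      exact hΦ _ h.some_mem.2.2
    · simp only [c, dif_neg h]
      exact hΦ _ hu₀

theorem cover (b : Bits n) (W : Submodule ℝ (Fin n → ℝ)) (S P B : Finset (Fin n))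
    (Φ : Set (Fin n → ℝ))
    (hB : ∀ u ∈ W, (∀ i, i ∉ S → (mat b *ᵥ u) i = 0) → (∀ j ∈ B, u j = 0) → u = 0)
    (v : Fin n → ℝ) (hv : v ∈ W) (hv0 : mat b *ᵥ v = 0) (hJ : v ∈ Φ) :
    ∃ R ⊆ P, R.card ≤ B.card ∧ b ∈ Ev W S R (P \ R) Φ := by
  classical
  let f : Fin n → (Fin n → ℝ) →ₗ[ℝ] ℝ := fun i => (LinearMap.proj i).comp (mat b).mulVecLin
  have hf : ∀ i u, f i u = (mat b *ᵥ u) i := fun i u => rfl
  let U : Submodule ℝ (Fin n → ℝ) := W ⊓ ⨅ i : {i // i ∉ S}, LinearMap.ker (f i)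
  have hU : ∀ u, u ∈ U ↔ u ∈ W ∧ ∀ i, i ∉ S → (mat b *ᵥ u) i = 0 := by
    intro u
    simp only [U, Submodule.mem_inf, Submodule.mem_iInf, LinearMap.mem_ker, hf, Subtype.forall]
  obtain ⟨R, hRP, hR, hR2⟩ := greedy f P B.card U
    (finrank_le_of_det U B fun u hu h => hB u ((hU u).1 hu).1 ((hU u).1 hu).2 h)
  refine ⟨R, hRP, hR, ⟨v, hv, fun i _ => by rw [hv0]; rfl, hJ⟩, fun u hu i hi => ?_⟩
  exact hR2 u ((hU u).2 ⟨hu.1, fun i hi => hu.2.1 i (Or.inl hi)⟩) (fun s hs => hu.2.1 s (Or.inr hs)) i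
    (mem_sdiff.1 hi).1

/-- vectors that vanish on `S` -/
def Wz (S : Finset (Fin n)) : Submodule ℝ (Fin n → ℝ) where
  carrier := {u | ∀ j ∈ S, u j = 0}
  add_mem' := fun {a b} ha hb j hj => by rw [Pi.add_apply, ha j hj, hb j hj, add_zero]
  zero_mem' := fun _ _ => rfl
  smul_mem' := fun c a ha j hj => by rw [Pi.smul_apply, ha j hj, smul_zero]

/-- vectors that are constant on the classes of `π` in `S` -/
def Wf (S : Finset (Fin n)) (π : Fin n → ℕ) : Submodule ℝ (Fin n → ℝ) where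
  carrier := {u | ∀ j ∈ S, ∀ l ∈ S, π j = π l → u j = u l}
  add_mem' := fun {a b} ha hb j hj l hl h => by
    rw [Pi.add_apply, Pi.add_apply, ha j hj l hl h, hb j hj l hl h]
  zero_mem' := fun _ _ _ _ _ => rfl
  smul_mem' := fun c a ha j hj l hl h => by rw [Pi.smul_apply, Pi.smul_apply, ha j hj l hl h]

/-- support `T` -/
def Zev (T R : Finset (Fin n)) : Set (Bits n) := Ev (Wz Tᶜ) Tᶜ R (Tᶜ \ R) {u | ∀ j ∈ T, u j ≠ 0}

theorem mu_Zev (T R : Finset (Fin n)) (x : ℝ) (hx : rho T.card ≤ x) (hx1 : x ≤ 1) (a : ℕ)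
    (ha : a + T.card + R.card ≤ n) : mu (Zev T R) ≤ x ^ a := by
  classical
  have h := mu_Ev (Wz Tᶜ) Tᶜ R (Tᶜ \ R) T {u | ∀ j ∈ T, u j ≠ 0} x ((rho_nonneg _).trans hx)
    (fun u hu => (lo_rho hu).mono hx)
    (disjoint_left.2 fun i hi => mem_compl.1 (mem_sdiff.1 hi).1) (fun i hi => mem_sdiff.1 hi)
    fun i _ _ j hj u hu => hu j (mem_sdiff.1 hj).1
  have h1 : a ≤ (Tᶜ \ R).card := by
    have h2 := le_card_sdiff R Tᶜ
    rw [card_compl, Fintype.card_fin] at h2
    omega
  exact h.trans (pow_le_pow_of_le_one ((rho_nonneg _).trans hx) hx1 h1)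

/-- nonzero coordinates on `J`, every absolute value at most `μ` times -/
def Spread (J : Finset (Fin n)) (μ : ℕ) : Set (Fin n → ℝ) :=
  {u | (∀ j ∈ J, u j ≠ 0) ∧ ∀ c : ℝ, (J.filter fun j => |u j| = c).card ≤ μ}

/-- few values on `P ∪ J` -/
def Fev (P J R : Finset (Fin n)) (π : Fin n → ℕ) (μ : ℕ) : Set (Bits n) :=
  Ev (Wf (P ∪ J) π) (P ∪ J) R (P \ R) (Spread J μ)

theorem mu_Fev (P J R : Finset (Fin n)) (π : Fin n → ℕ) (μ l : ℕ) (hPJ : Disjoint P J) (hR : R ⊆ P)
    (hl : J.card = 2 * l) (hl1 : 1 ≤ l) (x : ℝ) (hx : 4 * μ * rho l / l ≤ x) (hx1 : x ≤ 1) (a : ℕ)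
    (ha : a + R.card ≤ P.card) : mu (Fev P J R π μ) ≤ x ^ a := by
  classical
  have hx0 : 0 ≤ x := le_trans (by have := rho_nonneg l; positivity) hx
  have h := mu_Ev (Wf (P ∪ J) π) (P ∪ J) R (P \ R) J (Spread J μ) x hx0
    (fun u hu => (lo_ss hu.1 μ l hu.2 hl hl1).mono hx)
    (disjoint_of_subset_left sdiff_subset hPJ)
    (fun i hi => ⟨mem_union_left _ (mem_sdiff.1 hi).1, (mem_sdiff.1 hi).2⟩)
    fun i hi h => by
      rcases h with h | h
      · exact absurd (mem_union_right _ hi) h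
      · exact absurd hi (disjoint_left.1 hPJ (hR h))
  have h1 : a ≤ (P \ R).card := by
    have h2 := le_card_sdiff R P
    omega
  exact h.trans (pow_le_pow_of_le_one hx0 hx1 h1)

/-- the labelings of `S` by `D` labels -/
def labels (S : Finset (Fin n)) (D : ℕ) : Finset (Fin n → ℕ) :=
  Fintype.piFinset fun j => if j ∈ S then range D else {0}

theorem card_labels (S : Finset (Fin n)) (D : ℕ) : (labels S D).card = D ^ S.card := by
  rw [labels, Fintype.card_piFinset]
  have : ∀ j, (if j ∈ S then range D else {0}).card = if j ∈ S then D else 1 := by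
    intro j
    split_ifs <;> simp
  simp only [this]
  rw [prod_ite_mem, univ_inter, prod_const]

theorem mat_sq (b : Bits n) (i j : Fin n) : mat b i j = 1 ∨ mat b i j = -1 := by
  rw [mat_apply]
  split_ifs
  · exact Or.inr rfl
  · exact Or.inl rfl

/-- a kernel vector with at most two nonzero coordinates gives twins -/
theorem twins_of_supp (b : Bits n) (v : Fin n → ℝ) (hv : v ≠ 0) (hv0 : mat b *ᵥ v = 0)
    (h2 : (univ.filter fun j => v j ≠ 0).card ≤ 2) : Twins (mat b) := by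
  classical
  set T := univ.filter fun j => v j ≠ 0 with hT
  have hsum : ∀ k, ∑ j ∈ T, mat b k j * v j = 0 := by
    intro k
    have h1 := congrFun hv0 k
    rw [Matrix.mulVec, dotProduct] at h1
    have h5 : ∑ j ∈ T, mat b k j * v j = ∑ j, mat b k j * v j :=
      sum_filter_of_ne fun j _ hj h => hj (by rw [h, mul_zero])
    rw [h5]
    exact h1
  have hmem : ∀ j ∈ T, v j ≠ 0 := fun j hj => (mem_filter.1 hj).2
  have hne : T.Nonempty := by
    obtain ⟨j, hj⟩ := Function.ne_iff.1 hv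
    exact ⟨j, mem_filter.2 ⟨mem_univ _, hj⟩⟩
  have hpos := card_pos.2 hne
  have h12 : T.card = 1 ∨ T.card = 2 := by omega
  rcases h12 with h | h
  · obtain ⟨i, hi⟩ := card_eq_one.1 h
    have h3 := hsum i
    rw [hi, sum_singleton] at h3
    have h4 := hmem i (by rw [hi]; exact mem_singleton_self _)
    rcases mat_sq b i i with h5 | h5 <;> rw [h5] at h3 <;> exact absurd (by linarith) h4
  · obtain ⟨i, j, hij, hT2⟩ := card_eq_two.1 h
    have hi := hmem i (by rw [hT2]; simp)
    have h3 : ∀ k, mat b i k * v i + mat b j k * v j = 0 := by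
      intro k
      have h4 := hsum k
      rw [hT2, sum_pair hij, mat_symm b k i, mat_symm b k j] at h4
      exact h4
    have h5 : v j = v i ∨ v j = -v i := by
      have h6 := h3 i
      rcases mat_sq b i i with h7 | h7 <;> rcases mat_sq b j i with h8 | h8 <;> rw [h7, h8] at h6
      · right; linarith
      · left; linarith
      · left; linarith
      · right; linarith
    refine ⟨i, j, hij, ?_⟩
    rcases h5 with h5 | h5
    · right
      funext k
      have h6 := h3 k
      rw [h5, ← add_mul] at h6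
      have h7 := (mul_eq_zero.1 h6).resolve_right hi
      rw [Pi.neg_apply]
      linarith
    · left
      funext k
      have h6 := h3 k
      rw [h5, mul_neg, ← sub_eq_add_neg, ← sub_mul] at h6
      have h7 := (mul_eq_zero.1 h6).resolve_right hi
      linarith

/-- few values on `C`, no value too often -/
theorem cover_class (b : Bits n) (k t D μ : ℕ) (hG : Good k b) (v : Fin n → ℝ) (hv0 : mat b *ᵥ v = 0)
    (C : Finset (Fin n)) (ht : t ≤ C.card) (h0 : ∀ j ∈ C, v j ≠ 0) (hD : (C.image v).card ≤ D)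
    (hμ : ∀ c : ℝ, (C.filter fun j => v j = c).card ≤ μ) :
    ∃ P J R : Finset (Fin n), J.card = t ∧ Disjoint P J ∧ P.card + t = C.card ∧ R ⊆ P ∧
      R.card ≤ k + D ∧ ∃ π ∈ labels (P ∪ J) D, b ∈ Fev P J R π (2 * μ) := by
  classical
  obtain ⟨J, hJ, hJc⟩ := exists_subset_card_eq ht
  have hC : C \ J ∪ J = C := sdiff_union_of_subset hJ
  set Y := C.image v with hY
  let π : Fin n → ℕ := fun j => if h : j ∈ C then (Y.equivFin ⟨v j, mem_image_of_mem v h⟩ : ℕ) else 0
  have hπ : π ∈ labels C D := by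
    refine Fintype.mem_piFinset.2 fun j => ?_
    by_cases h : j ∈ C
    · simp only [π, dif_pos h, if_pos h, mem_range]
      exact lt_of_lt_of_le (Fin.is_lt _) hD
    · simp only [π, dif_neg h, if_neg h, mem_singleton]
  have hπ2 : ∀ j ∈ C, ∀ l ∈ C, π j = π l ↔ v j = v l := by
    intro j hj l hl
    simp only [π, dif_pos hj, dif_pos hl]
    rw [Fin.val_inj, Y.equivFin.injective.eq_iff, Subtype.mk.injEq]
  obtain ⟨B, hBc, hB⟩ := hG Cᶜ
  obtain ⟨S0, hS0, hinj, himg⟩ := Finset.exists_subset_injOn_image_eq_of_surjOn (f := v)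
    (C : Set (Fin n)) Y (by rw [hY, coe_image]; exact Set.surjOn_image _ _)
  have hS0c : S0.card ≤ D := by
    rw [← card_image_of_injOn hinj, himg]
    exact hD
  obtain ⟨R, hR, hRc, hb⟩ := cover b (Wf C π) C (C \ J) (B ∪ S0) (Spread J (2 * μ)) (fun u hu h1 h2 => by
    refine hB u (fun j hj => ?_) (fun j hj => h2 j (mem_union_left _ hj))
      fun i hi => h1 i (mem_compl.1 hi)
    have hj' : j ∈ C := by
      by_contra hc2
      exact hj (mem_compl.2 hc2)
    have h3 : v j ∈ S0.image v := by rw [himg]; exact mem_image_of_mem v hj'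
    obtain ⟨l, hl, hl2⟩ := mem_image.1 h3
    have hl' : l ∈ C := mem_coe.1 (hS0 (mem_coe.2 hl))
    rw [← hu l hl' j hj' ((hπ2 l hl' j hj').2 hl2)]
    exact h2 l (mem_union_right _ hl)) v (fun j hj l hl h => (hπ2 j hj l hl).1 h) hv0
    ⟨fun j hj => h0 j (hJ hj), fun c => by
      have h1 : (J.filter fun j => |v j| = c) ⊆
          (C.filter fun j => v j = c) ∪ (C.filter fun j => v j = -c) := by
        intro j hj
        obtain ⟨h2, h3⟩ := mem_filter.1 hj
        rcases abs_cases (v j) with h4 | h4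
        · exact mem_union_left _ (mem_filter.2 ⟨hJ h2, by linarith⟩)
        · exact mem_union_right _ (mem_filter.2 ⟨hJ h2, by linarith⟩)
      have h2 := (card_le_card h1).trans (card_union_le _ _)
      have h3 := hμ c
      have h4 := hμ (-c)
      omega⟩
  refine ⟨C \ J, J, R, hJc, sdiff_disjoint, by rw [card_sdiff_of_subset hJ]; omega, hR,
    hRc.trans ((card_union_le _ _).trans (by omega)), π, by rw [hC]; exact hπ, ?_⟩
  unfold Fev
  rw [hC]
  exact hb

/-- the covering -/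
theorem covering (b : Bits n) (k s₀ z N t w : ℕ) (m : ℝ) (hm : ((2 * z + 6 * N : ℕ) : ℝ) ≤ m)
    (ht : t ≤ N) (hw : n < w ^ 3) (hG : Good k b) (hS : Structured m (mat b)) (hT : ¬ Twins (mat b)) :
    (∃ T R : Finset (Fin n), 3 ≤ T.card ∧ T.card ≤ s₀ ∧ R.card ≤ s₀ ∧ b ∈ Zev T R) ∨
    (∃ T R : Finset (Fin n), s₀ ≤ T.card ∧ T.card + z ≤ n ∧ R.card ≤ k ∧ b ∈ Zev T R) ∨
    (∃ e < 3, ∃ P J R : Finset (Fin n), J.card = t ∧ Disjoint P J ∧ N ≤ P.card + t ∧ R ⊆ P ∧
      R.card ≤ k + (P.card + t) / (50 * w ^ e) ∧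
      ∃ π ∈ labels (P ∪ J) ((P.card + t) / (50 * w ^ e)), b ∈ Fev P J R π (2 * (50 * w ^ (e + 1)))) := by
  classical
  obtain ⟨v, hv, hv0, S, hS1, hS2⟩ := hS
  set T := univ.filter fun j => v j ≠ 0 with hTdef
  have hTm : ∀ j, j ∈ T ↔ v j ≠ 0 := fun j => by simp [hTdef]
  have hw0 : 0 < w := Nat.pos_of_ne_zero fun h => by rw [h] at hw; omega
  set mult : Fin n → ℕ := fun j => ((S ∩ T).filter fun l => v l = v j).card with hmult
  set C : ℕ → Finset (Fin n) := fun e =>
    (S ∩ T).filter fun j => 50 * w ^ e ≤ mult j ∧ mult j < 50 * w ^ (e + 1) with hC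
  by_cases hc : ∃ e < 3, N ≤ (C e).card
  · right; right
    obtain ⟨e, he, hN⟩ := hc
    have hfib : ∀ j ∈ C e, ((C e).filter fun l => v l = v j) = (S ∩ T).filter fun l => v l = v j := by
      intro j hj
      ext l
      simp only [mem_filter]
      refine ⟨fun h => ⟨(mem_filter.1 h.1).1, h.2⟩, fun h => ⟨mem_filter.2 ⟨h.1, ?_⟩, h.2⟩⟩
      have h1 : mult l = mult j := by simp only [hmult, h.2]
      rw [h1]
      exact (mem_filter.1 hj).2
    obtain ⟨P, J, R, h1, h2, h3, h4, h5, h6⟩ := cover_class b k t ((C e).card / (50 * w ^ e))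
      (50 * w ^ (e + 1)) hG v hv0 (C e) (ht.trans hN)
      (fun j hj => (hTm j).1 (mem_inter.1 (mem_filter.1 hj).1).2)
      (by
        rw [Nat.le_div_iff_mul_le (by positivity), mul_comm]
        refine mul_card_image_le_card _ _ fun a ha => ?_
        obtain ⟨j, hj, rfl⟩ := mem_image.1 ha
        rw [hfib j hj]
        exact (mem_filter.1 hj).2.1)
      fun c => by
        rcases ((C e).filter fun j => v j = c).eq_empty_or_nonempty with h | ⟨j, hj⟩
        · rw [h, card_empty]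
          exact Nat.zero_le _
        · obtain ⟨h1, rfl⟩ := mem_filter.1 hj
          rw [hfib j h1]
          exact (mem_filter.1 h1).2.2.le
    rw [← h3] at h5 h6 hN
    exact ⟨e, he, P, J, R, h1, h2, hN, h4, h5, h6⟩
  · have h3 : 3 ≤ T.card := by
      by_contra h
      exact hT (twins_of_supp b v hv hv0 (by rw [← hTdef]; omega))
    have hvW : v ∈ Wz Tᶜ := fun j hj => by
      by_contra h
      exact mem_compl.1 hj ((hTm j).2 h)
    by_cases hs : T.card ≤ s₀
    · left
      obtain ⟨R, -, hRc, hb⟩ := cover b (Wz Tᶜ) Tᶜ Tᶜ T {u | ∀ j ∈ T, u j ≠ 0}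
        (fun u hu _ h2 => funext fun j => by
          by_cases hj : j ∈ T
          · exact h2 j hj
          · exact hu j (mem_compl.2 hj)) v hvW hv0 fun j hj => (hTm j).1 hj
      exact ⟨T, R, h3, hs, hRc.trans hs, hb⟩
    · right; left
      obtain ⟨B, hBc, hB⟩ := hG T
      obtain ⟨R, -, hRc, hb⟩ := cover b (Wz Tᶜ) Tᶜ Tᶜ B {u | ∀ j ∈ T, u j ≠ 0} (fun u hu h1 h2 =>
        hB u (fun j hj => hu j (mem_compl.2 hj)) h2 fun i hi => h1 i (by simpa using hi))
        v hvW hv0 fun j hj => (hTm j).1 hj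
      refine ⟨T, R, by omega, ?_, hRc.trans hBc, hb⟩
      push Not at hc
      set L := (S ∩ T).filter fun j => mult j < 50 with hL
      have h4 : 2 * z + 6 * N ≤ S.card := by exact_mod_cast hm.trans hS1
      have h5 := card_union_add_card_inter S T
      have h6 := card_le_univ (S ∪ T)
      rw [Fintype.card_fin] at h6
      have h7 : L.card ≤ 50 * (L.image v).card := by
        refine card_le_mul_card_image _ _ fun a ha => ?_
        obtain ⟨j, hj, rfl⟩ := mem_image.1 ha
        refine le_trans (card_le_card fun l hl => ?_) (mem_filter.1 hj).2.le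
        exact mem_filter.2 ⟨(mem_filter.1 (mem_filter.1 hl).1).1, (mem_filter.1 hl).2⟩
      have h8 : (L.image v).card ≤ (v '' S).ncard := by
        rw [← Set.ncard_coe_finset, coe_image]
        exact Set.ncard_le_ncard (Set.image_mono fun j hj =>
          mem_coe.2 (mem_inter.1 (mem_filter.1 (mem_coe.1 hj)).1).1) (S.finite_toSet.image v)
      have h9 : S ∩ T ⊆ L ∪ (C 0 ∪ (C 1 ∪ C 2)) := by
        intro j hj
        have h10 : mult j ≤ n := by
          have := card_le_univ ((S ∩ T).filter fun l => v l = v j)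
          rwa [Fintype.card_fin] at this
        by_cases g0 : mult j < 50
        · exact mem_union_left _ (mem_filter.2 ⟨hj, g0⟩)
        refine mem_union_right _ ?_
        by_cases g1 : mult j < 50 * w ^ (0 + 1)
        · exact mem_union_left _ (mem_filter.2 ⟨hj, by rw [pow_zero]; omega, g1⟩)
        refine mem_union_right _ ?_
        by_cases g2 : mult j < 50 * w ^ (1 + 1)
        · exact mem_union_left _ (mem_filter.2 ⟨hj, not_lt.1 g1, g2⟩)
        · exact mem_union_right _ (mem_filter.2 ⟨hj, not_lt.1 g2, by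
            show mult j < 50 * w ^ 3
            omega⟩)
      have h10 := (card_le_card h9).trans ((card_union_le _ _).trans (Nat.add_le_add_left
        ((card_union_le _ _).trans (Nat.add_le_add_left (card_union_le _ _) _)) _))
      have g0 := hc 0 (by norm_num)
      have g1 := hc 1 (by norm_num)
      have g2 := hc 2 (by norm_num)
      omega

end Vale.Agent.N160
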