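import Vale.Agent.P160R67.Defs

/-! # P160: structured kernel vectors, definitions -/

open Matrix

namespace Vale.Agent.N160

/-- Two different rows of `B` are equal or opposite. -/
def Twins {n : ℕ} (B : Matrix (Fin n) (Fin n) ℝ) : Prop :=
  ∃ i j : Fin n, i ≠ j ∧ (B i = B j ∨ B i = -B j)

/-- `B` has a nonzero real kernel vector `v` and a set `S` of at least `m` coordinates on which `v`
takes at most `|S| / 100` different values. -/
def Structured {n : ℕ} (m : ℝ) (B : Matrix (Fin n) (Fin n) ℝ) : Prop :=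
  ∃ v : Fin n → ℝ, v ≠ 0 ∧ B *ᵥ v = 0 ∧
    ∃ S : Finset (Fin n), m ≤ S.card ∧ 100 * (v '' S).ncard ≤ S.card

end Vale.Agent.N160
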