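import Vale.Agent.N160.Defs
import Vale.Agent.P160.H884.Twins
import Vale.Agent.P160.H462.Count
import Vale.Agent.P160.Half.Tame1

/-! # P160: exposing the entries of a symmetric sign matrix -/

open Finset Matrix

namespace Vale.Agent.N160

open Vale.Agent.P160 Vale.Agent.P160.H462

section patch

variable {κ : Type} [Fintype κ] [DecidableEq κ]

/-- replace the bits on `G` -/
def patch (G : Finset κ) (b : κ → Bool) (x : Finset G) : κ → Bool :=
  fun e => if h : e ∈ G then decide ((⟨e, h⟩ : G) ∈ x) else b e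

/-- the bits on `G` -/
def restr (G : Finset κ) (b : κ → Bool) : Finset G := univ.filter fun e : G => b e = true

omit [Fintype κ] in
theorem patch_off {G : Finset κ} (b : κ → Bool) (x : Finset G) {e : κ} (h : e ∉ G) :
    patch G b x e = b e := by
  unfold patch
  rw [dif_neg h]

omit [Fintype κ] in
theorem patch_on {G : Finset κ} (b : κ → Bool) (x : Finset G) (e : G) :
    patch G b x e = decide (e ∈ x) := by
  unfold patch
  rw [dif_pos e.2]

omit [Fintype κ] in
theorem restr_patch {G : Finset κ} (b : κ → Bool) (x : Finset G) : restr G (patch G b x) = x := by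
  ext e
  simp [restr, patch_on]

omit [Fintype κ] in
theorem patch_restr_on {G : Finset κ} (b c : κ → Bool) {e : κ} (h : e ∈ G) :
    patch G b (restr G c) e = c e := by
  have := patch_on b (restr G c) ⟨e, h⟩
  rw [this]
  simp [restr]

omit [Fintype κ] in
theorem patch_patch {G : Finset κ} (b : κ → Bool) (x : Finset G) :
    patch G (patch G b x) (restr G b) = b := by
  funext e
  by_cases h : e ∈ G
  · exact patch_restr_on _ _ h
  · rw [patch_off _ _ h, patch_off _ _ h]

theorem sum_patch (G : Finset κ) (f : (κ → Bool) → ℝ) :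
    ∑ b : κ → Bool, ∑ x : Finset G, f (patch G b x) = 2 ^ G.card * ∑ b : κ → Bool, f b := by
  have hinv : Function.Involutive fun p : (κ → Bool) × Finset G =>
      (patch G p.1 p.2, restr G p.1) := by
    rintro ⟨b, x⟩
    simp only [patch_patch, restr_patch]
  have h1 := Equiv.sum_comp hinv.toPerm fun p : (κ → Bool) × Finset G => f p.1
  rw [Fintype.sum_prod_type, Fintype.sum_prod_type] at h1
  simp only [Function.Involutive.coe_toPerm] at h1
  rw [h1, mul_sum]
  refine sum_congr rfl fun b _ => ?_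
  rw [sum_const, card_univ, Fintype.card_finset, Fintype.card_coe, nsmul_eq_mul]
  push_cast
  rfl

end patch

variable {n : ℕ}

/-- the uniform measure on the bit arrays -/
noncomputable abbrev mu (E : Set (Bits n)) : ℝ := prob (0 : Sym2 (Fin n) → ℝ) E

open Classical in
theorem mu_eq (E : Set (Bits n)) :
    mu E = (∑ b : Bits n, if b ∈ E then (1 : ℝ) else 0) / 2 ^ Fintype.card (Sym2 (Fin n)) := by
  rw [mu, prob_zero, ← sum_filter, sum_const, nsmul_eq_mul, mul_one]

theorem mu_nonneg (E : Set (Bits n)) : 0 ≤ mu E := prob_zero_nonneg E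

theorem mu_mono {E F : Set (Bits n)} (h : E ⊆ F) : mu E ≤ mu F := prob_zero_mono h

theorem mu_union (E F : Set (Bits n)) : mu (E ∪ F) ≤ mu E + mu F :=
  prob_union_le (fun e => by simp) E F

theorem mu_univ : mu (Set.univ : Set (Bits n)) = 1 := by
  rw [mu_eq]
  simp

theorem mu_biUnion {ι : Type} (X : Finset ι) (P : ι → Set (Bits n)) (x : ℝ)
    (hx : ∀ T ∈ X, mu (P T) ≤ x) : mu {b | ∃ T ∈ X, b ∈ P T} ≤ X.card * x := by
  classical
  induction X using Finset.induction_on with
  | empty =>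
    have : ({b | ∃ T ∈ (∅ : Finset ι), b ∈ P T} : Set (Bits n)) = ∅ := by simp
    rw [this, mu_eq]
    simp
  | insert a X ha ih =>
    have h1 : ({b | ∃ T ∈ insert a X, b ∈ P T} : Set (Bits n)) = P a ∪ {b | ∃ T ∈ X, b ∈ P T} := by
      ext b
      simp
    rw [h1, card_insert_of_notMem ha]
    have h2 := ih fun T hT => hx T (mem_insert_of_mem hT)
    have h3 := hx a (mem_insert_self _ _)
    have h4 := mu_union (P a) {b | ∃ T ∈ X, b ∈ P T}
    push_cast
    linarith

open Classical in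
/-- exposing the bits on `G` last: upper bound -/
theorem expose_le (G : Finset (Sym2 (Fin n))) (E F : Set (Bits n)) (M : ℝ)
    (hE : ∀ b x, patch G b x ∈ E → b ∈ E)
    (hF : ∀ b ∈ E, ((univ.filter fun x : Finset G => patch G b x ∈ F).card : ℝ) ≤ M) :
    mu (E ∩ F) * 2 ^ G.card ≤ M * mu E := by
  have h1 := sum_patch G fun b => if b ∈ E ∩ F then (1 : ℝ) else 0
  have h2 : ∀ b : Bits n, (∑ x : Finset G, if patch G b x ∈ E ∩ F then (1 : ℝ) else 0) ≤
      M * if b ∈ E then (1 : ℝ) else 0 := by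
    intro b
    by_cases hb : b ∈ E
    · rw [if_pos hb, mul_one]
      refine le_trans ?_ (hF b hb)
      rw [← sum_filter, sum_const, nsmul_eq_mul, mul_one]
      have h4 : (univ.filter fun x : Finset G => patch G b x ∈ E ∩ F) ⊆
          univ.filter fun x : Finset G => patch G b x ∈ F :=
        fun x hx => mem_filter.2 ⟨mem_univ _, (mem_filter.1 hx).2.2⟩
      exact_mod_cast card_le_card h4
    · rw [if_neg hb, mul_zero]
      refine le_of_eq (sum_eq_zero fun x _ => if_neg fun h => hb (hE b x h.1))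
  have h3 := sum_le_sum fun b (_ : b ∈ (univ : Finset (Bits n))) => h2 b
  rw [h1, ← mul_sum] at h3
  rw [mu_eq, mu_eq, div_mul_eq_mul_div, ← mul_div_assoc]
  refine div_le_div_of_nonneg_right ?_ (by positivity)
  rw [mul_comm]
  convert h3

open Classical in
/-- exposing the bits on `G` last: lower bound -/
theorem expose_ge (G : Finset (Sym2 (Fin n))) (F : Set (Bits n)) (M : ℝ)
    (hF : ∀ b, M ≤ ((univ.filter fun x : Finset G => patch G b x ∈ F).card : ℝ)) :
    M ≤ mu F * 2 ^ G.card := by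
  have h1 := sum_patch G fun b => if b ∈ F then (1 : ℝ) else 0
  have h2 : ∀ b : Bits n, M ≤ ∑ x : Finset G, if patch G b x ∈ F then (1 : ℝ) else 0 := by
    intro b
    rw [← sum_filter, sum_const, nsmul_eq_mul, mul_one]
    exact hF b
  have h3 := sum_le_sum fun b (_ : b ∈ (univ : Finset (Bits n))) => h2 b
  rw [h1, sum_const, card_univ, Fintype.card_fun, Fintype.card_bool, nsmul_eq_mul] at h3
  rw [mu_eq, div_mul_eq_mul_div, le_div_iff₀ (by positivity)]
  push_cast at h3
  linarith

/-- the bits on `G` are determined by the others -/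
theorem expose_det (G : Finset (Sym2 (Fin n))) (E F : Set (Bits n))
    (hE : ∀ b x, patch G b x ∈ E → b ∈ E)
    (hF : ∀ b ∈ F, ∀ b' ∈ F, (∀ e, e ∉ G → b e = b' e) → ∀ e ∈ G, b e = b' e) :
    mu (E ∩ F) * 2 ^ G.card ≤ mu E := by
  classical
  have h := expose_le G E F 1 hE fun b _ => by
    have h1 : (univ.filter fun x : Finset G => patch G b x ∈ F).card ≤ 1 := by
      refine card_le_one.2 fun x hx y hy => ?_
      have h2 := hF _ (mem_filter.1 hx).2 _ (mem_filter.1 hy).2 fun e he => by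
        rw [patch_off _ _ he, patch_off _ _ he]
      ext e
      have h3 := h2 e e.2
      rw [patch_on, patch_on] at h3
      simpa using h3
    exact_mod_cast h1
  rwa [one_mul] at h

/-- the real sign matrix -/
noncomputable abbrev mat (b : Bits n) : Matrix (Fin n) (Fin n) ℝ := H884.twoMat (-1) 1 b

theorem mat_apply (b : Bits n) (i j : Fin n) : mat b i j = if b s(i, j) then -1 else 1 := rfl

theorem mat_symm (b : Bits n) (i j : Fin n) : mat b i j = mat b j i := by
  rw [mat_apply, mat_apply, Sym2.eq_swap]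

theorem mat_congr {b b' : Bits n} {i j : Fin n} (h : b s(i, j) = b' s(i, j)) :
    mat b i j = mat b' i j := by
  rw [mat_apply, mat_apply, h]

theorem bit_of_mat {b b' : Bits n} {i j k l : Fin n} (h : mat b i j = mat b' k l) :
    b s(i, j) = b' s(k, l) := by
  rw [mat_apply, mat_apply] at h
  by_cases h1 : b s(i, j) = true <;> by_cases h2 : b' s(k, l) = true
  · rw [h1, h2]
  · rw [if_pos h1, if_neg h2] at h; norm_num at h
  · rw [if_neg h1, if_pos h2] at h; norm_num at h
  · rw [Bool.not_eq_true] at h1 h2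
    rw [h1, h2]

/-- the Erdos-Littlewood-Offord bound -/
noncomputable def rho (s : ℕ) : ℝ := (s.choose (s / 2) : ℝ) / 2 ^ s

theorem rho_nonneg (s : ℕ) : 0 ≤ rho s := by unfold rho; positivity

/-- the pairs between the row `i` and the columns `J` -/
def rowG (i : Fin n) (J : Finset (Fin n)) : Finset (Sym2 (Fin n)) := J.image fun j => s(i, j)

theorem rowG_inj (i : Fin n) : Function.Injective fun j : Fin n => s(i, j) := by
  intro j k h
  exact Sym2.congr_right.1 h

theorem card_rowG (i : Fin n) (J : Finset (Fin n)) : (rowG i J).card = J.card :=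
  card_image_of_injective _ (rowG_inj i)

theorem mem_rowG {i : Fin n} {J : Finset (Fin n)} {e : Sym2 (Fin n)} :
    e ∈ rowG i J ↔ ∃ j ∈ J, s(i, j) = e := mem_image

/-- a Littlewood-Offord bound for the coordinates of `u` in `J` -/
def LO (J : Finset (Fin n)) (u : Fin n → ℝ) (ρ : ℝ) : Prop :=
  ∀ (α : Type) [Fintype α] [DecidableEq α] (o : α → Fin n), Function.Injective o → (∀ a, o a ∈ J) →
    Fintype.card α = J.card → ∀ (c : ℝ) (𝒜 : Finset (Finset α)), (∀ x ∈ 𝒜, ∑ a ∈ x, u (o a) = c) →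
      (𝒜.card : ℝ) ≤ ρ * 2 ^ J.card

theorem LO.mono {J : Finset (Fin n)} {u : Fin n → ℝ} {ρ σ : ℝ} (h : LO J u ρ) (h1 : ρ ≤ σ) :
    LO J u σ := fun α _ _ o h2 h3 h4 c 𝒜 h5 =>
  (h α o h2 h3 h4 c 𝒜 h5).trans (mul_le_mul_of_nonneg_right h1 (by positivity))

/-- Erdos -/
theorem lo_rho {J : Finset (Fin n)} {u : Fin n → ℝ} (h0 : ∀ j ∈ J, u j ≠ 0) : LO J u (rho J.card) := by
  intro α _ _ o _ h3 h4 c 𝒜 h5
  have h1 := Half.Tame.card_int_le (fun a => u (o a)) 0 c le_rfl
    (fun a => by simpa using h0 _ (h3 a)) 𝒜 fun x hx => by rw [h5 x hx, sub_self, abs_zero]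
  rw [h4] at h1
  rw [rho, div_mul_cancel₀ _ (by positivity)]
  exact_mod_cast h1

/-- intervals with a centre -/
theorem card_interval {α : Type} [Fintype α] [DecidableEq α] (w : α → ℝ) (r c : ℝ) (hr : 0 ≤ r)
    (H : Finset α) (hH : ∀ j ∈ H, 2 * r < |w j|) :
    (univ.filter fun y : Finset α => |∑ a ∈ y, w a - c| ≤ r).card ≤
      2 ^ (Fintype.card α + 1 - H.card) * H.card.choose (H.card / 2) := by
  classical
  have h := Half.Tame.lo_count (ι := Option α) (fun o => o.elim (-c) w) r hr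
    (H.map Function.Embedding.some) fun j hj => by
      obtain ⟨a, ha, rfl⟩ := mem_map.1 hj
      exact hH a ha
  rw [card_map, Fintype.card_option] at h
  refine le_trans (card_le_card_of_injOn (fun y o => o.elim true fun a => decide (a ∈ y))
    (fun y hy => ?_) fun y _ y' _ hyy => ?_) h
  · refine mem_coe.2 (mem_filter.2 ⟨mem_univ _, ?_⟩)
    have h1 := (mem_filter.1 (mem_coe.1 hy)).2
    rw [Fintype.sum_option]
    simp only [Option.elim, if_true, decide_eq_true_eq, sum_ite_mem, univ_inter]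
    rw [neg_add_eq_sub]
    exact h1
  · ext a
    have := congrFun hyy (some a)
    simpa using this

theorem exists_small {α : Type} [Fintype α] [DecidableEq α] (f : α → ℝ) (l : ℕ)
    (hl : l ≤ Fintype.card α) : ∃ L : Finset α, L.card = l ∧ ∀ i ∈ L, ∀ j, j ∉ L → f i ≤ f j := by
  obtain ⟨L, hL, hmin⟩ := exists_min_image (powersetCard l (univ : Finset α)) (fun L => ∑ a ∈ L, f a)
    (powersetCard_nonempty.2 (by rw [card_univ]; exact hl))
  have hc := (mem_powersetCard.1 hL).2
  refine ⟨L, hc, fun i hi j hj => ?_⟩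
  have hj' : j ∉ L.erase i := fun h => hj (mem_of_mem_erase h)
  have h1 := hmin (insert j (L.erase i)) (mem_powersetCard.2 ⟨subset_univ _, by
    rw [card_insert_of_notMem hj', card_erase_add_one hi, hc]⟩)
  rw [sum_insert hj', ← add_sum_erase L f hi] at h1
  linarith

/-- Sarkozy-Szemeredi, with multiplicities -/
theorem lo_ss {J : Finset (Fin n)} {u : Fin n → ℝ} (h0 : ∀ j ∈ J, u j ≠ 0) (μ l : ℕ)
    (hμ : ∀ c : ℝ, (J.filter fun j => |u j| = c).card ≤ μ) (hl : J.card = 2 * l) (hl1 : 1 ≤ l) :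
    LO J u (4 * μ * rho l / l) := by
  classical
  intro α _ _ o hinj h3 h4 c 𝒜 h5
  set w : α → ℝ := fun a => u (o a) with hw
  obtain ⟨L, hLc, hL⟩ := exists_small (fun a => |w a|) l (by omega)
  have hHc : Lᶜ.card = l := by rw [card_compl]; omega
  obtain ⟨j₀, hj₀, hmed⟩ := exists_min_image Lᶜ (fun a => |w a|) (card_pos.1 (by omega))
  obtain ⟨i₀, hi₀, hmin⟩ := exists_min_image L (fun a => |w a|) (card_pos.1 (by omega))
  have hpos : 0 < |w i₀| := abs_pos.2 (h0 _ (h3 i₀))
  have hle : ∀ i ∈ L, |w i| ≤ |w j₀| := fun i hi => hL i hi j₀ (mem_compl.1 hj₀)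
  have hr : 0 ≤ (|w j₀| - |w i₀|) / 2 := by linarith [hle i₀ hi₀]
  have hH : ∀ j ∈ Lᶜ, 2 * ((|w j₀| - |w i₀|) / 2) < |w j| := fun j hj => by linarith [hmed j hj]
  have c1 := card_interval w _ (c + (|w j₀| + |w i₀|) / 2) hr Lᶜ hH
  have c2 := card_interval w _ (c - (|w j₀| + |w i₀|) / 2) hr Lᶜ hH
  have e1 : Fintype.card α + 1 - l = l + 1 := by omega
  rw [hHc, e1] at c1 c2
  set Y1 := univ.filter fun y : Finset α =>
    |∑ a ∈ y, w a - (c + (|w j₀| + |w i₀|) / 2)| ≤ (|w j₀| - |w i₀|) / 2 with hY1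
  set Y2 := univ.filter fun y : Finset α =>
    |∑ a ∈ y, w a - (c - (|w j₀| + |w i₀|) / 2)| ≤ (|w j₀| - |w i₀|) / 2 with hY2
  have hflip : ∀ x ∈ 𝒜, ∀ i, |∑ a ∈ symmDiff x {i}, w a - c| = |w i| := by
    intro x hx i
    have h6 : ∑ a ∈ x, w a = c := h5 x hx
    by_cases hi : i ∈ x
    · have e : symmDiff x {i} = x.erase i := by
        ext a
        by_cases ha : a = i <;> simp [mem_symmDiff, ha, hi]
      rw [e, ← h6, ← add_sum_erase x w hi, ← abs_neg]
      congr 1
      ring
    · have e : symmDiff x {i} = insert i x := by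
        ext a
        by_cases ha : a = i <;> simp [mem_symmDiff, ha, hi]
      rw [e, sum_insert hi, h6, add_sub_cancel_right]
  have hcount : (𝒜 ×ˢ L).card ≤ μ * (Y1 ∪ Y2).card := by
    refine card_le_mul_card_image_of_maps_to (f := fun p : Finset α × α => symmDiff p.1 {p.2})
      (fun p hp => ?_) μ fun y _ => ?_
    · obtain ⟨hx, hi⟩ := mem_product.1 hp
      have h6 := hflip p.1 hx p.2
      have h7 := hle _ hi
      have h8 := hmin _ hi
      rcases (abs_eq (abs_nonneg _)).1 h6 with h9 | h9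
      · exact mem_union_left _ (mem_filter.2 ⟨mem_univ _, abs_le.2 ⟨by linarith, by linarith⟩⟩)
      · exact mem_union_right _ (mem_filter.2 ⟨mem_univ _, abs_le.2 ⟨by linarith, by linarith⟩⟩)
    · refine le_trans (card_le_card_of_injOn (fun p => o p.2) (fun p hp => ?_)
        fun p hp q hq h => ?_) (hμ |∑ a ∈ y, w a - c|)
      · obtain ⟨hp1, hp2⟩ := mem_filter.1 (mem_coe.1 hp)
        refine mem_coe.2 (mem_filter.2 ⟨h3 _, ?_⟩)
        rw [← hp2]
        exact (hflip p.1 (mem_product.1 hp1).1 p.2).symm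
      · have h6 : p.2 = q.2 := hinj h
        have h7 : symmDiff p.1 {p.2} = symmDiff q.1 {q.2} :=
          (mem_filter.1 (mem_coe.1 hp)).2.trans (mem_filter.1 (mem_coe.1 hq)).2.symm
        rw [h6] at h7
        exact Prod.ext (symmDiff_left_injective _ h7) h6
  rw [card_product, hLc] at hcount
  have h6 : 𝒜.card * l ≤ μ * (2 * (2 ^ (l + 1) * l.choose (l / 2))) :=
    hcount.trans (Nat.mul_le_mul_left _ ((card_union_le _ _).trans (by omega)))
  have h7 : (𝒜.card : ℝ) * l ≤ μ * (2 * (2 ^ (l + 1) * l.choose (l / 2))) := by exact_mod_cast h6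
  have hlr : (0 : ℝ) < l := by exact_mod_cast hl1
  rw [div_mul_eq_mul_div, le_div_iff₀ hlr]
  refine h7.trans (le_of_eq ?_)
  rw [hl, rho, two_mul l, pow_add, pow_add]
  field_simp
  ring

/-- one row -/
theorem one_row (i : Fin n) (J : Finset (Fin n)) (E : Set (Bits n)) (V : Bits n → Fin n → ℝ) (ρ : ℝ)
    (hE : ∀ b x, patch (rowG i J) b x ∈ E → b ∈ E)
    (hV : ∀ b x, V (patch (rowG i J) b x) = V b) (h0 : ∀ b, LO J (V b) ρ) :
    mu (E ∩ {b | (mat b *ᵥ V b) i = 0}) ≤ ρ * mu E := by
  classical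
  have h := expose_le (rowG i J) E {b | (mat b *ᵥ V b) i = 0} (ρ * 2 ^ J.card) hE
    fun b _ => by
      -- the other end point
      have hex : ∀ e : rowG i J, ∃ j ∈ J, s(i, j) = e := fun e => mem_rowG.1 e.2
      choose o ho1 ho2 using hex
      have hcard : Fintype.card (rowG i J) = J.card := by rw [Fintype.card_coe, card_rowG]
      have hinj : Function.Injective o := fun e e' h => by
        refine Subtype.ext ?_
        rw [← ho2 e, ← ho2 e', h]
      refine h0 b _ o hinj ho1 hcard ((∑ j ∈ J, V b j + ∑ j ∈ Jᶜ, mat b i j * V b j) / 2) _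
        fun x hx => ?_
      have h2 : (mat (patch (rowG i J) b x) *ᵥ V (patch (rowG i J) b x)) i = 0 :=
        (mem_filter.1 hx).2
      rw [hV, Matrix.mulVec, dotProduct, ← sum_add_sum_compl J] at h2
      have h3 : ∑ j ∈ Jᶜ, mat (patch (rowG i J) b x) i j * V b j = ∑ j ∈ Jᶜ, mat b i j * V b j := by
        refine sum_congr rfl fun j hj => ?_
        rw [mat_congr (patch_off _ _ ?_)]
        intro hm
        obtain ⟨k, hk, hk2⟩ := mem_rowG.1 hm
        exact mem_compl.1 hj (rowG_inj i hk2 ▸ hk)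
      have h4 : ∀ g : Fin n → ℝ, ∑ j ∈ J, g j = ∑ e : rowG i J, g (o e) := by
        intro g
        symm
        refine sum_bij (fun e _ => o e) (fun e _ => ho1 e) (fun e _ e' _ h => hinj h) (fun j hj => ?_)
          fun e _ => rfl
        refine ⟨⟨s(i, j), mem_rowG.2 ⟨j, hj, rfl⟩⟩, mem_univ _, ?_⟩
        exact rowG_inj i (ho2 _)
      have h5 : ∑ j ∈ J, mat (patch (rowG i J) b x) i j * V b j =
          ∑ j ∈ J, V b j - 2 * ∑ e ∈ x, V b (o e) := by
        rw [h4, h4 (V b)]
        have h6 : ∑ e ∈ x, V b (o e) = ∑ e : rowG i J, if e ∈ x then V b (o e) else 0 := by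
          simp only [Finset.sum_ite_mem, Finset.univ_inter]
        rw [h6, mul_sum, ← sum_sub_distrib]
        refine sum_congr rfl fun e _ => ?_
        rw [mat_apply, ho2 e, patch_on]
        by_cases he : e ∈ x
        · simp [he]; ring
        · simp [he]
      rw [h3, h5] at h2
      linarith
  rw [card_rowG, mul_right_comm] at h
  exact le_of_mul_le_mul_right h (by positivity)

/-- the pairs between `I` and `J` -/
def Cross (I J : Finset (Fin n)) (e : Sym2 (Fin n)) : Prop := ∃ i ∈ I, ∃ j ∈ J, s(i, j) = e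

/-- many rows -/
theorem many_rows (I J : Finset (Fin n)) (hIJ : Disjoint I J) (V : Bits n → Fin n → ℝ) (ρ : ℝ)
    (hρ : 0 ≤ ρ) (hV : ∀ b b', (∀ e, ¬ Cross I J e → b e = b' e) → V b = V b')
    (h0 : ∀ b, LO J (V b) ρ) : mu {b | ∀ i ∈ I, (mat b *ᵥ V b) i = 0} ≤ ρ ^ I.card := by
  classical
  have key : ∀ I' ⊆ I, mu {b | ∀ i ∈ I', (mat b *ᵥ V b) i = 0} ≤ ρ ^ I'.card := by
    intro I'
    induction I' using Finset.induction_on with
    | empty =>
      intro _
      have : ({b | ∀ i ∈ (∅ : Finset (Fin n)), (mat b *ᵥ V b) i = 0} : Set (Bits n)) = Set.univ := by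
        simp
      rw [this, mu_univ]
      simp
    | insert a I' ha ih =>
      intro hsub
      have haI : a ∈ I := hsub (mem_insert_self _ _)
      have h1 := ih ((subset_insert _ _).trans hsub)
      have hVa : ∀ b x, V (patch (rowG a J) b x) = V b := fun b x => hV _ _ fun e he =>
        patch_off _ _ fun hm => by
          obtain ⟨j, hj, hj2⟩ := mem_rowG.1 hm
          exact he ⟨a, haI, j, hj, hj2⟩
      have h2 := one_row a J {b | ∀ i ∈ I', (mat b *ᵥ V b) i = 0} V ρ (fun b x hb i hi => by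
        have h3 := hb i hi
        rw [hVa] at h3
        rw [← h3]
        simp only [Matrix.mulVec, dotProduct]
        refine sum_congr rfl fun j _ => ?_
        rw [mat_congr (patch_off _ _ ?_).symm]
        intro hm
        obtain ⟨k, hk, hk2⟩ := mem_rowG.1 hm
        rcases Sym2.eq_iff.1 hk2 with ⟨h4, -⟩ | ⟨-, h4⟩
        · exact ha (h4 ▸ hi)
        · exact disjoint_left.1 hIJ (hsub (mem_insert_of_mem hi)) (h4 ▸ hk)) hVa h0
      have h4 : ({b | ∀ i ∈ insert a I', (mat b *ᵥ V b) i = 0} : Set (Bits n)) =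
          {b | ∀ i ∈ I', (mat b *ᵥ V b) i = 0} ∩ {b | (mat b *ᵥ V b) a = 0} := by
        ext b
        simp only [mem_insert, forall_eq_or_imp, Set.mem_ofPred_eq, Set.mem_inter_iff]
        exact and_comm
      rw [h4, card_insert_of_notMem ha, pow_succ']
      exact h2.trans (mul_le_mul_of_nonneg_left h1 hρ)
  exact key I subset_rfl

/-! ## Size of `rho` -/

theorem rho_odd (m : ℕ) : rho (2 * m + 1) = rho (2 * m + 2) := by
  unfold rho
  have e1 : (2 * m + 1) / 2 = m := by omega
  have e2 : (2 * m + 2) / 2 = m + 1 := by omega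
  rw [e1, e2, Nat.choose_succ_succ' (2 * m + 1) m]
  have e3 : (2 * m + 1).choose (m + 1) = (2 * m + 1).choose m := Nat.choose_symm_half m
  rw [e3]
  push_cast
  rw [pow_succ (2 : ℝ) (2 * m + 1)]
  field_simp
  ring

theorem rho_even (m : ℕ) : rho (2 * m) ^ 2 * (2 * m + 1) ≤ 1 := by
  induction m with
  | zero => simp [rho]
  | succ m ih =>
    have e1 : rho (2 * (m + 1)) = rho (2 * m) * ((2 * m + 1) / (2 * m + 2)) := by
      unfold rho
      have e2 : 2 * (m + 1) / 2 = m + 1 := by omega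
      have e3 : 2 * m / 2 = m := by omega
      rw [e2, e3, ← Nat.centralBinom_eq_two_mul_choose, ← Nat.centralBinom_eq_two_mul_choose]
      have h := Nat.succ_mul_centralBinom_succ m
      have h' : ((m : ℝ) + 1) * (m + 1).centralBinom = 2 * (2 * m + 1) * m.centralBinom := by
        exact_mod_cast h
      have h2 : ((m + 1).centralBinom : ℝ) = 2 * (2 * m + 1) * m.centralBinom / (m + 1) := by
        rw [eq_div_iff (by positivity)]
        linarith
      rw [h2, show 2 * (m + 1) = 2 * m + 2 by ring, pow_add]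
      field_simp
    rw [e1]
    push_cast
    have hm : (0 : ℝ) ≤ m := Nat.cast_nonneg m
    have h3 : ((2 * (m : ℝ) + 1) / (2 * m + 2)) ^ 2 * (2 * (m + 1) + 1) ≤ 2 * m + 1 := by
      rw [div_pow, div_mul_eq_mul_div, div_le_iff₀ (by positivity)]
      nlinarith
    calc (rho (2 * m) * ((2 * (m : ℝ) + 1) / (2 * m + 2))) ^ 2 * (2 * (m + 1) + 1)
        = rho (2 * m) ^ 2 * (((2 * (m : ℝ) + 1) / (2 * m + 2)) ^ 2 * (2 * (m + 1) + 1)) := by ring
      _ ≤ rho (2 * m) ^ 2 * (2 * m + 1) := mul_le_mul_of_nonneg_left h3 (sq_nonneg _)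
      _ ≤ 1 := ih

theorem rho_sq (s : ℕ) : rho s ^ 2 * (s + 1) ≤ 1 := by
  obtain ⟨m, rfl | rfl⟩ := Nat.even_or_odd' s
  · have := rho_even m
    push_cast
    exact this
  · have h := rho_even (m + 1)
    rw [show 2 * (m + 1) = 2 * m + 2 by ring, ← rho_odd] at h
    push_cast at h ⊢
    have := sq_nonneg (rho (2 * m + 1))
    nlinarith

theorem rho_le_one (s : ℕ) : rho s ≤ 1 := by
  have h := rho_sq s
  have h0 := rho_nonneg s
  have h1 : (0 : ℝ) ≤ s := Nat.cast_nonneg s
  nlinarith [sq_nonneg (rho s)]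

theorem rho_le_of (s : ℕ) (x : ℝ) (hx : 0 < x) (h : 1 ≤ x ^ 2 * (s + 1)) : rho s ≤ x := by
  have h1 := rho_sq s
  have h2 : (0 : ℝ) < s + 1 := by positivity
  have h3 : rho s ^ 2 ≤ x ^ 2 := le_of_mul_le_mul_right (h1.trans h) h2
  exact (pow_le_pow_iff_left₀ (rho_nonneg s) hx.le two_ne_zero).1 h3

theorem rho_three (s : ℕ) (hs : 3 ≤ s) : rho s ≤ 3 / 8 := by
  by_cases h : 7 ≤ s
  · refine rho_le_of s _ (by norm_num) ?_
    have : (7 : ℝ) ≤ s := by exact_mod_cast h
    nlinarith
  · have h1 : s ≤ 6 := by omega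
    interval_cases s <;> norm_num [rho, Nat.choose]

end Vale.Agent.N160
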