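import Vale.Agent.N160.Upper

/-! # P160: twins, and four rows with `r₀ + r₁ = r₂ + r₃` -/

open Finset Matrix Filter Topology

namespace Vale.Agent.N160

open Vale.Agent.P160 Vale.Agent.P160.H462 Vale.Agent.P160.H884

variable {n : ℕ}

theorem rel_false {i j : Fin n} {b : Bits n} : b ∈ Rel false i j ↔ mat b i = mat b j := by
  constructor
  · intro h
    funext k
    have h1 := h k
    rw [Bool.false_xor] at h1
    rw [mat_apply, mat_apply, h1]
  · intro h k
    rw [Bool.false_xor]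
    exact bit_of_mat (congrFun h k)

theorem rel_true {i j : Fin n} {b : Bits n} : b ∈ Rel true i j ↔ mat b i = -mat b j := by
  constructor
  · intro h
    funext k
    have h1 := h k
    rw [Pi.neg_apply, mat_apply, mat_apply, h1]
    cases b s(j, k) <;> simp
  · intro h k
    have h1 := congrFun h k
    rw [Pi.neg_apply, mat_apply, mat_apply] at h1
    cases h2 : b s(j, k) <;> cases h3 : b s(i, k) <;> simp [h2, h3] at h1 ⊢ <;> norm_num at h1

theorem twins_iff {b : Bits n} :
    Twins (mat b) ↔ ∃ z ∈ (univ : Finset (Fin n)).offDiag, b ∈ H884.Ev z := by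
  constructor
  · rintro ⟨i, j, hij, h⟩
    have key : ∀ (s : Bool) (i j : Fin n), i ≠ j → b ∈ Rel s i j → decide (j < i) = s →
        ∃ z ∈ (univ : Finset (Fin n)).offDiag, b ∈ H884.Ev z := fun s i j hij h hs =>
      ⟨(i, j), mem_offDiag.2 ⟨mem_univ _, mem_univ _, hij⟩, by rw [← hs] at h; exact h⟩
    rcases h with h | h <;> rcases lt_or_gt_of_ne hij with h1 | h1
    · exact key false i j hij (rel_false.2 h) (decide_eq_false (not_lt.2 h1.le))
    · exact key false j i hij.symm (Rel.symm (rel_false.2 h)) (decide_eq_false (not_lt.2 h1.le))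
    · exact key true j i hij.symm (Rel.symm (rel_true.2 h)) (decide_eq_true h1)
    · exact key true i j hij (rel_true.2 h) (decide_eq_true h1)
  · rintro ⟨z, hz, h⟩
    refine ⟨z.1, z.2, (mem_offDiag.1 hz).2.2, ?_⟩
    unfold H884.Ev at h
    cases hs : decide (z.2 < z.1) <;> rw [hs] at h
    · exact Or.inl (rel_false.1 h)
    · exact Or.inr (rel_true.1 h)

theorem rel_det {s : Bool} {i j : Fin n} (hij : i ≠ j) (J : Finset (Fin n)) :
    ∀ b ∈ Rel s i j, ∀ b' ∈ Rel s i j, (∀ e, e ∉ rowG i J → b e = b' e) → ∀ e ∈ rowG i J, b e = b' e := by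
  intro b hb b' hb' h e he
  have h1 : ∀ k, k ≠ i → b s(i, k) = b' s(i, k) := by
    intro k hk
    rw [hb k, hb' k, h s(j, k)]
    intro hm
    obtain ⟨l, -, hl⟩ := mem_rowG.1 hm
    rcases Sym2.eq_iff.1 hl with ⟨h2, -⟩ | ⟨h2, -⟩
    · exact hij h2
    · exact hk h2.symm
  obtain ⟨k, -, rfl⟩ := mem_rowG.1 he
  by_cases hk : k = i
  · rw [hk, hb i, hb' i, Sym2.eq_swap, h1 j hij.symm]
  · exact h1 k hk

theorem card_offDiag_real : (((univ : Finset (Fin n)).offDiag.card : ℕ) : ℝ) = n * (n - 1) := by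
  rw [offDiag_card, card_univ, Fintype.card_fin, Nat.cast_sub (Nat.le_mul_self n)]
  push_cast
  ring

theorem twins_upper : mu {b : Bits n | Twins (mat b)} ≤ (n : ℝ) ^ 2 * (1 / 2) ^ n := by
  have h1 : {b : Bits n | Twins (mat b)} = {b | ∃ z ∈ (univ : Finset (Fin n)).offDiag, b ∈ H884.Ev z} := by
    ext b
    exact twins_iff
  have h2 := mu_biUnion (univ : Finset (Fin n)).offDiag (fun z => H884.Ev z) ((1 / 2) ^ n) fun z hz => by
    have h3 := expose_det (rowG z.1 univ) Set.univ (H884.Ev z) (fun _ _ _ => trivial)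
      (rel_det (mem_offDiag.1 hz).2.2 univ)
    rw [Set.univ_inter, mu_univ, card_rowG, card_univ, Fintype.card_fin] at h3
    rw [one_div, inv_pow, ← one_div, le_div_iff₀ (by positivity)]
    exact h3
  rw [h1]
  refine h2.trans (mul_le_mul_of_nonneg_right ?_ (by positivity))
  rw [card_offDiag_real]
  have : (0 : ℝ) ≤ n := Nat.cast_nonneg n
  nlinarith

theorem mu_diff (E F : Set (Bits n)) : mu E ≤ mu (E \ F) + mu (E ∩ F) :=
  (mu_mono (by rw [Set.sdiff_union_inter])).trans (mu_union _ _)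

/-- Bonferroni -/
theorem mu_bonf {ι : Type} [DecidableEq ι] (X : Finset ι) (P : ι → Set (Bits n)) (x y : ℝ) (hy0 : 0 ≤ y)
    (hx : ∀ z ∈ X, x ≤ mu (P z)) (hy : ∀ z ∈ X, ∀ w ∈ X, z ≠ w → mu (P z ∩ P w) ≤ y) :
    X.card * x - X.card ^ 2 * y ≤ mu {b | ∃ z ∈ X, b ∈ P z} := by
  classical
  induction X using Finset.induction_on with
  | empty => simpa using mu_nonneg _
  | insert a X ha ih =>
    have h1 := ih (fun z hz => hx z (mem_insert_of_mem hz))
      fun z hz w hw => hy z (mem_insert_of_mem hz) w (mem_insert_of_mem hw)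
    have h2 := mu_biUnion X (fun z => P a ∩ P z) y fun z hz =>
      hy a (mem_insert_self _ _) z (mem_insert_of_mem hz) fun h => ha (h ▸ hz)
    have h3 := hx a (mem_insert_self _ _)
    have h4 : mu {b | ∃ z ∈ insert a X, b ∈ P z} + mu {b | ∃ z ∈ X, b ∈ P a ∩ P z} =
        mu (P a) + mu {b | ∃ z ∈ X, b ∈ P z} := by
      rw [mu_eq, mu_eq, mu_eq, mu_eq, ← add_div, ← add_div, ← sum_add_distrib, ← sum_add_distrib]
      congr 1
      refine sum_congr rfl fun b _ => ?_
      by_cases h5 : b ∈ P a <;> by_cases h6 : ∃ z ∈ X, b ∈ P z <;> simp [h5, h6]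
    rw [card_insert_of_notMem ha]
    push_cast
    have h7 : (0 : ℝ) ≤ X.card := Nat.cast_nonneg _
    nlinarith [mul_nonneg h7 hy0]

theorem twins_lower (hn : 1 ≤ n) :
    (n : ℝ) * (n - 1) * (1 / 2) ^ n - ((n : ℝ) * (n - 1)) ^ 2 * (2 * (1 / 4) ^ n) ≤
      mu {b : Bits n | Twins (mat b)} := by
  classical
  have h1 : {b : Bits n | Twins (mat b)} = {b | ∃ z ∈ (univ : Finset (Fin n)).offDiag, b ∈ H884.Ev z} := by
    ext b
    exact twins_iff
  rw [h1, ← card_offDiag_real]
  refine mu_bonf _ _ _ _ (by positivity) (fun z hz => ?_) fun z hz w hw hzw => ?_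
  · have h2 := card_rel (decide (z.2 < z.1)) z.1 z.2 (mem_offDiag.1 hz).2.2
    rw [mu, prob_zero, le_div_iff₀ (by positivity)]
    refine le_trans (le_of_eq ?_) h2
    rw [one_div, inv_pow]
    field_simp
  · have h2 := card_ev_inter z w (mem_offDiag.1 hz).2.2 (mem_offDiag.1 hw).2.2 hzw
    have h3 : (2 : ℝ) * (1 / 4) ^ n = 1 / 2 ^ (2 * n - 1) := by
      have h4 : (4 : ℝ) ^ n = 2 ^ (2 * n - 1) * 2 := by
        rw [← pow_succ, show 2 * n - 1 + 1 = 2 * n by omega, pow_mul]
        norm_num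
      rw [one_div, inv_pow, h4]
      field_simp
    rw [mu, prob_zero, h3, div_le_div_iff₀ (by positivity) (by positivity), one_mul]
    exact_mod_cast h2

/-- a vector that vanishes outside `T` -/
theorem structured_of (B : Matrix (Fin n) (Fin n) ℝ) (m : ℝ) (hD : 104 ≤ n) (v : Fin n → ℝ) (hv : v ≠ 0)
    (hv0 : B *ᵥ v = 0) (T : Finset (Fin n)) (hT : ∀ j, j ∉ T → v j = 0) (h4 : T.card ≤ 4)
    (hm : m + 4 ≤ n) : Structured m B := by
  refine ⟨v, hv, hv0, Tᶜ, ?_, ?_⟩
  · have h5 : (T.card : ℝ) ≤ 4 := by exact_mod_cast h4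
    rw [card_compl, Fintype.card_fin, Nat.cast_sub (by simpa using card_le_univ T)]
    linarith
  · have h1 : v '' (Tᶜ : Finset (Fin n)) ⊆ {0} := by
      rintro _ ⟨j, hj, rfl⟩
      exact hT j (mem_compl.1 (mem_coe.1 hj))
    have h2 := Set.ncard_le_ncard h1 (Set.finite_singleton _)
    rw [Set.ncard_singleton] at h2
    rw [card_compl, Fintype.card_fin]
    omega

theorem structured_of_twins (b : Bits n) (m : ℝ) (hD : 104 ≤ n) (hm : m + 4 ≤ n) (h : Twins (mat b)) :
    Structured m (mat b) := by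
  obtain ⟨i, j, hij, h⟩ := h
  have hc : ({i, j} : Finset (Fin n)).card ≤ 4 := by rw [card_pair hij]; norm_num
  rcases h with h | h
  · refine structured_of _ m hD (Pi.single i 1 - Pi.single j 1) (fun h0 => ?_) ?_ {i, j}
      (fun k hk => ?_) hc hm
    · have := congrFun h0 i
      simp [hij] at this
    · rw [Matrix.mulVec_sub, Matrix.mulVec_single_one, Matrix.mulVec_single_one]
      funext k
      show mat b k i - mat b k j = 0
      rw [mat_symm b k i, mat_symm b k j, h, sub_self]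
    · simp only [mem_insert, mem_singleton, not_or] at hk
      simp [hk.1, hk.2]
  · refine structured_of _ m hD (Pi.single i 1 + Pi.single j 1) (fun h0 => ?_) ?_ {i, j}
      (fun k hk => ?_) hc hm
    · have := congrFun h0 i
      simp [hij] at this
    · rw [Matrix.mulVec_add, Matrix.mulVec_single_one, Matrix.mulVec_single_one]
      funext k
      show mat b k i + mat b k j = 0
      rw [mat_symm b k i, mat_symm b k j, h, Pi.neg_apply, neg_add_cancel]
    · simp only [mem_insert, mem_singleton, not_or] at hk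
      simp [hk.1, hk.2]

/-! ## Four rows -/

/-- the six columns of height four with `x₀ + x₁ = x₂ + x₃` -/
def pat (c : Fin 6) (i : ℕ) : Bool := (![0, 10, 6, 15, 5, 9] c : ℕ).testBit i

theorem pat_rel : ∀ c : Fin 6, (pat c 0 = pat c 2 ∧ pat c 1 = pat c 3) ∨
    (pat c 0 = pat c 3 ∧ pat c 1 = pat c 2) := by decide

theorem pat_inj : ∀ c d : Fin 6, (∀ i : Fin 4, pat c i = pat d i) → c = d := by decide

theorem pat_sep : ∀ (i j : Fin 4) (s : Bool), pat 0 i = (s ^^ pat 0 j) → pat 1 i = (s ^^ pat 1 j) →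
    pat 2 i = (s ^^ pat 2 j) → i = j := by decide

/-- the array with prescribed first four rows -/
def Psi (y : Fin n → Fin 6) : Bits n := Sym2.lift ⟨fun i j =>
  if i.val < 4 then (if j.val < 4 then false else pat (y j) i)
  else (if j.val < 4 then pat (y i) j else false), fun i j => by
    by_cases hi : i.val < 4 <;> by_cases hj : j.val < 4 <;> simp [hi, hj]⟩

theorem Psi_out (y : Fin n → Fin 6) {i j : Fin n} (hi : i.val < 4) (hj : ¬ j.val < 4) :
    Psi y s(i, j) = pat (y j) i := by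
  simp [Psi, hi, hj]

theorem Psi_in (y : Fin n → Fin 6) {i j : Fin n} (hi : i.val < 4) (hj : j.val < 4) :
    Psi y s(i, j) = false := by
  simp [Psi, hi, hj]

/-- the allowed columns -/
def Ycols (n : ℕ) : Finset (Fin n → Fin 6) := Fintype.piFinset fun k =>
  if k.val < 7 then {if k.val = 5 then 1 else if k.val = 6 then 2 else 0} else univ

theorem card_lt (c : ℕ) : (univ.filter fun i : Fin n => i.val < c).card ≤ c := by
  calc (univ.filter fun i : Fin n => i.val < c).card ≤ (range c).card :=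
        card_le_card_of_injOn (fun i => i.val) (fun i hi => mem_coe.2 (mem_range.2
          (mem_filter.1 (mem_coe.1 hi)).2)) fun i _ j _ h => Fin.ext h
    _ = c := card_range c

theorem card_Ycols : 6 ^ (n - 7) ≤ (Ycols n).card := by
  rw [Ycols, Fintype.card_piFinset]
  have h1 : ∀ k : Fin n, (if k.val < 7 then ({if k.val = 5 then 1 else if k.val = 6 then 2 else 0} :
      Finset (Fin 6)) else univ).card = if k.val < 7 then 1 else 6 := by
    intro k
    by_cases h : k.val < 7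
    · rw [if_pos h, if_pos h, card_singleton]
    · rw [if_neg h, if_neg h, card_univ, Fintype.card_fin]
  simp only [h1]
  rw [prod_ite, prod_const_one, one_mul, prod_const]
  refine Nat.pow_le_pow_right (by norm_num) ?_
  have h2 := card_filter_add_card_filter_not (s := (univ : Finset (Fin n))) fun k => k.val < 7
  have h3 := card_lt (n := n) 7
  rw [card_univ, Fintype.card_fin] at h2
  omega

/-- the first four rows have a prescribed form -/
def Four (n : ℕ) : Set (Bits n) :=
  {b | ∃ y ∈ Ycols n, ∀ i j : Fin n, i.val < 4 → b s(i, j) = Psi y s(i, j)}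

theorem mu_four (hn : 7 ≤ n) : (1 / 6) ^ 7 * (3 / 8) ^ n ≤ mu (Four n) := by
  classical
  set G : Finset (Sym2 (Fin n)) :=
    (univ.filter fun i : Fin n => i.val < 4).biUnion fun i => rowG i univ with hG
  have hmem : ∀ i j : Fin n, i.val < 4 → s(i, j) ∈ G := fun i j hi =>
    mem_biUnion.2 ⟨i, mem_filter.2 ⟨mem_univ _, hi⟩, mem_rowG.2 ⟨j, mem_univ _, rfl⟩⟩
  have hGc : G.card ≤ 4 * n := by
    refine card_biUnion_le.trans ?_
    simp only [card_rowG, card_univ, Fintype.card_fin, sum_const, smul_eq_mul]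
    exact Nat.mul_le_mul_right _ (card_lt 4)
  have h1 := expose_ge G (Four n) (6 ^ (n - 7)) fun b => by
    have h2 : (Ycols n).card ≤ (univ.filter fun x : Finset G => patch G b x ∈ Four n).card := by
      refine card_le_card_of_injOn (fun y => restr G (Psi y)) (fun y hy => ?_) fun y hy y' hy' h => ?_
      · exact mem_coe.2 (mem_filter.2 ⟨mem_univ _, y, mem_coe.1 hy, fun i j hi =>
          patch_restr_on _ _ (hmem i j hi)⟩)
      · funext k
        by_cases hk : k.val < 7
        · have h3 := Fintype.mem_piFinset.1 (mem_coe.1 hy) k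
          have h4 := Fintype.mem_piFinset.1 (mem_coe.1 hy') k
          rw [if_pos hk, mem_singleton] at h3 h4
          rw [h3, h4]
        · refine pat_inj _ _ fun i => ?_
          have hi : (⟨i.val, by omega⟩ : Fin n).val < 4 := i.2
          have h3 := patch_restr_on b (Psi y) (hmem _ k hi)
          have h4 := patch_restr_on b (Psi y') (hmem _ k hi)
          have h5 : restr G (Psi y) = restr G (Psi y') := h
          rw [h5, h4, Psi_out _ hi (by omega), Psi_out _ hi (by omega)] at h3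
          exact h3.symm
    have h3 := card_Ycols.trans h2
    exact_mod_cast h3
  have h2 : (2 : ℝ) ^ G.card ≤ 16 ^ n := by
    calc (2 : ℝ) ^ G.card ≤ 2 ^ (4 * n) := pow_le_pow_right₀ (by norm_num) hGc
      _ = 16 ^ n := by rw [pow_mul]; norm_num
  have h3 := h1.trans (mul_le_mul_of_nonneg_left h2 (mu_nonneg _))
  have h4 : (1 / 6 : ℝ) ^ 7 * (3 / 8) ^ n * 16 ^ n = 6 ^ (n - 7) := by
    have h5 : (6 : ℝ) ^ n = 6 ^ 7 * 6 ^ (n - 7) := by
      rw [← pow_add]
      congr 1
      omega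
    rw [mul_assoc, ← mul_pow, show (3 / 8 : ℝ) * 16 = 6 by norm_num, h5, ← mul_assoc, ← mul_pow]
    norm_num
  rw [← h4] at h3
  exact le_of_mul_le_mul_right h3 (by positivity)

theorem structured_of_four {b : Bits n} (hb : b ∈ Four n) (m : ℝ) (hD : 104 ≤ n)
    (hm : m + 4 ≤ n) : Structured m (mat b) := by
  obtain ⟨y, -, hy⟩ := hb
  let p : Fin 4 → Fin n := fun i => ⟨i.val, by omega⟩
  have hp : ∀ i, (p i).val < 4 := fun i => i.2
  have hne : ∀ i j, i ≠ j → p i ≠ p j := fun i j h h2 => h (Fin.ext (Fin.val_eq_of_eq h2 :))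
  refine structured_of _ m hD
    (Pi.single (p 0) 1 + Pi.single (p 1) 1 - Pi.single (p 2) 1 - Pi.single (p 3) 1) (fun h0 => ?_) ?_
    (univ.filter fun i : Fin n => i.val < 4) (fun k hk => ?_) (card_lt 4) hm
  · have := congrFun h0 (p 0)
    simp [hne 0 1 (by decide), hne 0 2 (by decide), hne 0 3 (by decide)] at this
  · rw [Matrix.mulVec_sub, Matrix.mulVec_sub, Matrix.mulVec_add, Matrix.mulVec_single_one,
      Matrix.mulVec_single_one, Matrix.mulVec_single_one, Matrix.mulVec_single_one]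
    funext k
    show mat b k (p 0) + mat b k (p 1) - mat b k (p 2) - mat b k (p 3) = 0
    rw [mat_symm b k, mat_symm b k, mat_symm b k, mat_symm b k, mat_apply, mat_apply, mat_apply,
      mat_apply, hy _ k (hp 0), hy _ k (hp 1), hy _ k (hp 2), hy _ k (hp 3)]
    by_cases hk : k.val < 4
    · rw [Psi_in _ (hp 0) hk, Psi_in _ (hp 1) hk, Psi_in _ (hp 2) hk, Psi_in _ (hp 3) hk]
      norm_num
    · rw [Psi_out _ (hp 0) hk, Psi_out _ (hp 1) hk, Psi_out _ (hp 2) hk, Psi_out _ (hp 3) hk]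
      show (if pat (y k) 0 then (-1 : ℝ) else 1) + (if pat (y k) 1 then (-1 : ℝ) else 1) -
        (if pat (y k) 2 then (-1 : ℝ) else 1) - (if pat (y k) 3 then (-1 : ℝ) else 1) = 0
      rcases pat_rel (y k) with ⟨h1, h2⟩ | ⟨h1, h2⟩ <;> rw [h1, h2] <;> ring
  · have h1 : ∀ i, k ≠ p i := fun i h => hk (mem_filter.2 ⟨mem_univ _, h ▸ hp i⟩)
    simp [h1]

theorem four_rel_in (hn : 7 ≤ n) {b : Bits n} (hb : b ∈ Four n) {s : Bool} {i j : Fin n}
    (hi : i.val < 4) (hj : j.val < 4) (h : b ∈ Rel s i j) : i = j := by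
  obtain ⟨y, hY, hy⟩ := hb
  have key : ∀ (k : ℕ) (hk : k < 7), 4 ≤ k → pat (y ⟨k, by omega⟩) i = (s ^^ pat (y ⟨k, by omega⟩) j) := by
    intro k hk h4
    have h1 := h ⟨k, by omega⟩
    rw [hy _ _ hi, hy _ _ hj, Psi_out _ hi (by simpa using h4), Psi_out _ hj (by simpa using h4)] at h1
    exact h1
  have hval : ∀ (k : ℕ) (hk : k < 7), y ⟨k, by omega⟩ = if k = 5 then 1 else if k = 6 then 2 else 0 := by
    intro k hk
    have h3 := Fintype.mem_piFinset.1 hY ⟨k, by omega⟩
    rw [if_pos hk, mem_singleton] at h3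
    exact h3
  have h4 := key 4 (by norm_num) le_rfl
  have h5 := key 5 (by norm_num) (by norm_num)
  have h6 := key 6 (by norm_num) (by norm_num)
  rw [hval 4 (by norm_num)] at h4
  rw [hval 5 (by norm_num)] at h5
  rw [hval 6 (by norm_num)] at h6
  have h7 := pat_sep ⟨i.val, hi⟩ ⟨j.val, hj⟩ s h4 h5 h6
  exact Fin.ext (Fin.val_eq_of_eq h7 :)

theorem four_rel_out {s : Bool} {i j : Fin n} (hij : i ≠ j) (hi : ¬ i.val < 4) :
    mu (Four n ∩ Rel s i j) ≤ 16 * (1 / 2) ^ n * mu (Four n) := by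
  classical
  set J := (univ.filter fun i : Fin n => i.val < 4)ᶜ with hJ
  have h1 := expose_det (rowG i J) (Four n) (Rel s i j) (fun b x hb => by
    obtain ⟨y, hY, hy⟩ := hb
    refine ⟨y, hY, fun k l hk => ?_⟩
    rw [← hy k l hk, patch_off]
    intro hm
    obtain ⟨a, ha, ha2⟩ := mem_rowG.1 hm
    rcases Sym2.eq_iff.1 ha2 with ⟨h2, -⟩ | ⟨-, h2⟩
    · exact hi (h2 ▸ hk)
    · exact mem_compl.1 ha (mem_filter.2 ⟨mem_univ _, h2 ▸ hk⟩)) (rel_det hij J)
  rw [card_rowG] at h1
  have h2 : n ≤ J.card + 4 := by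
    have h3 := card_lt (n := n) 4
    rw [hJ, card_compl, Fintype.card_fin]
    omega
  have h3 : (2 : ℝ) ^ n ≤ 2 ^ J.card * 16 := by
    calc (2 : ℝ) ^ n ≤ 2 ^ (J.card + 4) := pow_le_pow_right₀ (by norm_num) h2
      _ = _ := by rw [pow_add]; norm_num
  have h4 := mu_nonneg (Four n ∩ Rel s i j)
  have h5 : mu (Four n ∩ Rel s i j) * 2 ^ n ≤ 16 * mu (Four n) := by nlinarith
  rw [one_div, inv_pow, mul_right_comm, ← div_eq_mul_inv, le_div_iff₀ (by positivity)]
  exact h5

theorem four_twins (hn : 7 ≤ n) :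
    mu (Four n ∩ {b | Twins (mat b)}) ≤ (n : ℝ) ^ 2 * (16 * (1 / 2) ^ n * mu (Four n)) := by
  have h0 : 0 ≤ 16 * (1 / 2) ^ n * mu (Four n) := mul_nonneg (by positivity) (mu_nonneg _)
  have h1 : Four n ∩ {b : Bits n | Twins (mat b)} ⊆
      {b | ∃ z ∈ (univ : Finset (Fin n)).offDiag, b ∈ Four n ∩ H884.Ev z} := by
    intro b hb
    obtain ⟨z, hz, h⟩ := twins_iff.1 hb.2
    exact ⟨z, hz, hb.1, h⟩
  have h2 := mu_biUnion (univ : Finset (Fin n)).offDiag (fun z => Four n ∩ H884.Ev z)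
    (16 * (1 / 2) ^ n * mu (Four n)) fun z hz => by
    have hne := (mem_offDiag.1 hz).2.2
    by_cases h3 : z.1.val < 4
    · by_cases h4 : z.2.val < 4
      · have h5 : Four n ∩ H884.Ev z = ∅ :=
          Set.eq_empty_of_forall_notMem fun b hb => hne (four_rel_in hn hb.1 h3 h4 hb.2)
        rw [h5, mu_eq]
        simpa using h0
      · have h5 : Four n ∩ H884.Ev z ⊆ Four n ∩ Rel (decide (z.2 < z.1)) z.2 z.1 :=
          fun b hb => ⟨hb.1, Rel.symm hb.2⟩
        exact (mu_mono h5).trans (four_rel_out hne.symm h4)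
    · exact four_rel_out hne h3
  refine (mu_mono h1).trans (h2.trans (mul_le_mul_of_nonneg_right ?_ h0))
  rw [card_offDiag_real]
  have : (0 : ℝ) ≤ n := Nat.cast_nonneg n
  nlinarith

theorem lower (η : ℝ) (hη : η < 1) : ∀ᶠ n : ℕ in atTop,
    (1 / 6) ^ 7 / 2 * (3 / 8) ^ n ≤ mu {b : Bits n | Structured (η * n) (mat b) ∧ ¬ Twins (mat b)} := by
  have h1 : Tendsto (fun n : ℕ => (n : ℝ) ^ 2 * (1 / 2) ^ n) atTop (𝓝 0) :=
    tendsto_pow_const_mul_const_pow_of_lt_one 2 (by norm_num) (by norm_num)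
  filter_upwards [eventually_ge_atTop 104, h1.eventually (gt_mem_nhds (show (0 : ℝ) < 1 / 32 by norm_num)),
    eventually_ge_atTop 7, tendsto_cast_atTop (1 - η) (by linarith) 4] with n h2 h3 hn h4
  have h5 := mu_four hn
  have h6 := four_twins hn
  have h7 := mu_diff (Four n) {b | Twins (mat b)}
  have h8 : mu (Four n \ {b | Twins (mat b)}) ≤
      mu {b : Bits n | Structured (η * n) (mat b) ∧ ¬ Twins (mat b)} :=
    mu_mono fun b hb => ⟨structured_of_four hb.1 _ h2 (by linarith), hb.2⟩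
  have h9 := mu_nonneg (Four n)
  have h10 : (n : ℝ) ^ 2 * (16 * (1 / 2) ^ n * mu (Four n)) ≤ mu (Four n) / 2 := by
    have e : (n : ℝ) ^ 2 * (16 * (1 / 2) ^ n * mu (Four n)) =
        16 * (((n : ℝ) ^ 2 * (1 / 2) ^ n) * mu (Four n)) := by ring
    rw [e]
    nlinarith
  linarith

end Vale.Agent.N160
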