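import Vale.Agent.N160.Lower
import Vale.Agent.P160R67.Main

/-! # P160: Q1 and the structured kernel vectors, on arbitrary probability spaces -/

open MeasureTheory ProbabilityTheory Filter Topology

namespace Vale.Agent.N160

open Vale.Agent.P160 Vale.Agent.P160R Vale.Agent.P160.H462

theorem transfer {n : ℕ} {Ω : Type*} [MeasurableSpace Ω] {P : Measure Ω}
    {A : Ω → Matrix (Fin n) (Fin n) ℝ} (h : IsSignMatrix P A) (E : Set (Matrix (Fin n) (Fin n) ℝ)) :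
    NullMeasurableSet {ω | A ω ∈ E} P ∧ P.real {ω | A ω ∈ E} = mu {b : Bits n | mat b ∈ E} := by
  have := sgn_prob
  set S : Set (Up n → ℝ) := Set.univ.pi fun _ : Up n => ({-1, 1} : Set ℝ) with hS
  have hSf : S.Finite := Set.Finite.pi fun _ => Set.toFinite _
  have h0 : law n Sᶜ = 0 := by
    rw [prob_compl_eq_zero_iff hSf.measurableSet, hS, Measure.pi_pi]
    exact Finset.prod_eq_one fun _ _ => uniformOn_self (Set.toFinite _) ⟨1, by simp⟩
  have h1 : P {ω | (fun p : Up n => A ω p.1.1 p.1.2) ∈ Sᶜ} = 0 := by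
    rw [h.hasLaw.measure_eq (p := fun x => x ∈ Sᶜ) hSf.measurableSet.compl]
    exact h0
  have hm : MeasurableSet (S ∩ {x | sym x ∈ E}) := (hSf.inter_of_left _).measurableSet
  have h2 : {ω | A ω ∈ E} =ᵐ[P] {ω | (fun p : Up n => A ω p.1.1 p.1.2) ∈ S ∩ {x | sym x ∈ E}} := by
    have h3 : ∀ᵐ ω ∂P, (fun p : Up n => A ω p.1.1 p.1.2) ∈ S := h1
    filter_upwards [h3] with ω hω
    refine propext ⟨fun h4 => ⟨hω, ?_⟩, fun h4 => ?_⟩
    · show sym (fun p : Up n => A ω p.1.1 p.1.2) ∈ E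
      rw [sym_of_symm (h.symm ω)]
      exact h4
    · have h5 : sym (fun p : Up n => A ω p.1.1 p.1.2) ∈ E := h4.2
      rw [sym_of_symm (h.symm ω)] at h5
      exact h5
  refine ⟨(h.hasLaw.aemeasurable.nullMeasurableSet_preimage hm).congr h2.symm, ?_⟩
  rw [measureReal_congr h2, h.hasLaw.measureReal_eq (p := fun x => x ∈ S ∩ {x | sym x ∈ E}) hm,
    law_real, mu, ← H884.pr_two (by norm_num), H884.pr, ← image_sym,
    Set.ncard_image_of_injective _ sym_injective, ← Set.image_inter_preimage,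
    Set.ncard_image_of_injective _ sym_injective]
  congr 3
  ext x
  exact ⟨fun h6 => ⟨h6.1, h6.2.2⟩, fun h6 => ⟨h6.1, h6.1, h6.2⟩⟩

theorem sharp (η : ℝ) (hη : 0 < η) (hη1 : η < 1) :
    Tendsto (fun n : ℕ => mu {b : Bits n | Structured (η * n) (mat b)} /
      ((n : ℝ) ^ 2 / 2 ^ n)) atTop (𝓝 1) ∧
    Tendsto (fun n : ℕ => mu {b : Bits n | Structured (η * n) (mat b) ∧
      ¬ Twins (mat b)} ^ (1 / (n : ℝ))) atTop (𝓝 (3 / 8)) := by
  obtain ⟨C, s, hup⟩ := upper η hη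
  refine ⟨?_, root_of _ (3 / 8) _ C s (by norm_num) (by positivity) (lower η hη1) hup⟩
  have l1 : Tendsto (fun n : ℕ => 1 - 1 / (n : ℝ) - 2 * ((n : ℝ) ^ 2 * (1 / 2) ^ n)) atTop (𝓝 1) := by
    have h1 : Tendsto (fun n : ℕ => (n : ℝ) ^ 2 * (1 / 2) ^ n) atTop (𝓝 0) :=
      tendsto_pow_const_mul_const_pow_of_lt_one 2 (by norm_num) (by norm_num)
    have h2 := ((tendsto_const_nhds (x := (1 : ℝ))).sub tendsto_one_div_atTop_nhds_zero_nat).sub
      (h1.const_mul 2)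
    simpa using h2
  have l2 : Tendsto (fun n : ℕ => 1 + |C| * (4 / 3) * (((n + 1 : ℕ) : ℝ) ^ s * (3 / 4) ^ (n + 1))) atTop
      (𝓝 1) := by
    have h0 : Tendsto (fun n : ℕ => ((n + 1 : ℕ) : ℝ) ^ s * (3 / 4 : ℝ) ^ (n + 1)) atTop (𝓝 0) :=
      (tendsto_pow_const_mul_const_pow_of_lt_one s (by norm_num) (by norm_num)).comp
        (tendsto_add_atTop_nat 1)
    have h2 := (tendsto_const_nhds (x := (1 : ℝ))).add (h0.const_mul (|C| * (4 / 3)))
    simpa using h2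
  refine tendsto_of_tendsto_of_tendsto_of_le_of_le' l1 l2 ?_ ?_
  · filter_upwards [eventually_ge_atTop 104, eventually_ge_atTop 1,
      tendsto_cast_atTop (1 - η) (by linarith) 4]
      with n h1 hn h2
    have hnr : (1 : ℝ) ≤ n := by exact_mod_cast hn
    have h3 := twins_lower hn
    have h4 : mu {b : Bits n | Twins (mat b)} ≤
        mu {b : Bits n | Structured (η * n) (mat b)} :=
      mu_mono fun b hb => structured_of_twins b _ h1 (by linarith) hb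
    rw [le_div_iff₀ (by positivity)]
    refine le_trans ?_ (h3.trans h4)
    have e1 : (1 / 4 : ℝ) ^ n = (1 / 2) ^ n * (1 / 2) ^ n := by rw [← mul_pow]; norm_num
    have e2 : (n : ℝ) ^ 2 / 2 ^ n = (n : ℝ) ^ 2 * (1 / 2) ^ n := by rw [one_div, inv_pow, div_eq_mul_inv]
    rw [e1, e2]
    set x : ℝ := (1 / 2) ^ n with hx
    have e3 : (1 - 1 / (n : ℝ) - 2 * ((n : ℝ) ^ 2 * x)) * ((n : ℝ) ^ 2 * x) =
        n * (n - 1) * x - ((n : ℝ) * n) ^ 2 * (2 * (x * x)) := by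
      field_simp
    rw [e3]
    have h5 : ((n : ℝ) * (n - 1)) ^ 2 ≤ ((n : ℝ) * n) ^ 2 :=
      pow_le_pow_left₀ (by nlinarith) (by nlinarith) 2
    have h6 : 0 ≤ 2 * (x * x) := by positivity
    nlinarith [mul_le_mul_of_nonneg_right h5 h6]
  · filter_upwards [hup, eventually_ge_atTop 1] with n h1 hn
    have hnr : (1 : ℝ) ≤ n := by exact_mod_cast hn
    have h3 := twins_upper (n := n)
    have h4 : mu {b : Bits n | Structured (η * n) (mat b)} ≤
        mu {b : Bits n | Twins (mat b)} + mu {b : Bits n |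
          Structured (η * n) (mat b) ∧ ¬ Twins (mat b)} := by
      refine le_trans (mu_mono fun b hb => ?_) (mu_union _ _)
      by_cases h : Twins (mat b)
      · exact Or.inl h
      · exact Or.inr ⟨hb, h⟩
    rw [div_le_iff₀ (by positivity)]
    have e1 : (3 / 8 : ℝ) ^ n = (3 / 4) ^ n * (1 / 2) ^ n := by rw [← mul_pow]; norm_num
    have e2 : (n : ℝ) ^ 2 / 2 ^ n = (n : ℝ) ^ 2 * (1 / 2) ^ n := by rw [one_div, inv_pow, div_eq_mul_inv]
    rw [e2]
    rw [e1] at h1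
    set x : ℝ := (1 / 2) ^ n with hx
    set w : ℝ := ((n : ℝ) + 1) ^ s * (3 / 4) ^ n * x with hw
    have hw0 : 0 ≤ w := by positivity
    have e3 : (1 + |C| * (4 / 3) * (((n + 1 : ℕ) : ℝ) ^ s * (3 / 4) ^ (n + 1))) * ((n : ℝ) ^ 2 * x) =
        (n : ℝ) ^ 2 * x + |C| * w * (n : ℝ) ^ 2 := by
      rw [hw, pow_succ (3 / 4 : ℝ)]
      push_cast
      ring
    have h5 : C * ((n : ℝ) + 1) ^ s * ((3 / 4) ^ n * x) ≤ |C| * w * (n : ℝ) ^ 2 := by
      have h6 : (1 : ℝ) ≤ (n : ℝ) ^ 2 := one_le_pow₀ hnr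
      calc C * ((n : ℝ) + 1) ^ s * ((3 / 4) ^ n * x) = C * w := by rw [hw]; ring
        _ ≤ |C| * w * 1 := by rw [mul_one]; exact mul_le_mul_of_nonneg_right (le_abs_self C) hw0
        _ ≤ _ := mul_le_mul_of_nonneg_left h6 (by positivity)
    rw [e3]
    linarith

theorem main :
    (∀ n : ℕ, ∃ (Ω : Type) (_ : MeasurableSpace Ω) (P : Measure Ω)
      (A : Ω → Matrix (Fin n) (Fin n) ℝ), IsSignMatrix P A) ∧
    ∀ (Ω : ℕ → Type*) [∀ n, MeasurableSpace (Ω n)] (P : ∀ n, Measure (Ω n))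
      (A : ∀ n, Ω n → Matrix (Fin n) (Fin n) ℝ), (∀ n, IsSignMatrix (P n) (A n)) →
      (∀ (n : ℕ) (E : Set (Matrix (Fin n) (Fin n) ℝ)), NullMeasurableSet {ω | A n ω ∈ E} (P n)) ∧
      Tendsto (fun n : ℕ => (P n).real {ω | (A n ω).det = 0} ^ (1 / (n : ℝ))) atTop (𝓝 (1 / 2)) ∧
      ∀ η : ℝ, 0 < η → η < 1 →
        Tendsto (fun n : ℕ => (P n).real {ω | Structured (η * n) (A n ω)} /
          ((n : ℝ) ^ 2 / 2 ^ n)) atTop (𝓝 1) ∧
        Tendsto (fun n : ℕ => (P n).real {ω | Structured (η * n) (A n ω) ∧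
          ¬ Twins (A n ω)} ^ (1 / (n : ℝ))) atTop (𝓝 (3 / 8)) := by
  refine ⟨fun n => ⟨_, inferInstance, law n, sym, model n⟩, fun Ω _ P A h =>
    ⟨fun n E => (transfer (h n) E).1, ?_, fun η h1 h2 => ⟨?_, ?_⟩⟩⟩
  · exact H884.main.1.1.congr fun n => by rw [(h n).sing.2, law_sing]
  · refine (sharp η h1 h2).1.congr fun n => ?_
    exact congrArg (fun x : ℝ => x / ((n : ℝ) ^ 2 / 2 ^ n))
      (transfer (h n) {B | Structured (η * n) B}).2.symm
  · refine (sharp η h1 h2).2.congr fun n => ?_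
    exact congrArg (fun x : ℝ => x ^ (1 / (n : ℝ)))
      (transfer (h n) {B | Structured (η * n) B ∧ ¬ Twins B}).2.symm

end Vale.Agent.N160
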