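import Vale.Agent.N160.Cover

/-! # P160: the upper bound for structured kernel vectors without twins -/

open Finset Matrix Filter Topology

namespace Vale.Agent.N160

open Vale.Agent.P160 Vale.Agent.P160.H462

variable {n : ℕ}

theorem upper_fin (k s₀ z N l w a₁ a₂ : ℕ) (m x φ : ℝ) (y : ℕ → ℝ)
    (hm : ((2 * z + 6 * N : ℕ) : ℝ) ≤ m) (ht : 2 * l ≤ N) (hw : n < w ^ 3) (hl : 1 ≤ l)
    (hk : 8 * n ≤ k ^ 2) (hx0 : 0 < x) (hx1 : x ≤ 1) (hx : 1 ≤ x ^ 2 * (s₀ + 1))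
    (h1 : a₁ + 2 * s₀ ≤ n) (h2 : a₂ + k ≤ z) (hφ0 : 0 ≤ φ)
    (hy : ∀ e < 3, 4 * ((2 * (50 * w ^ (e + 1)) : ℕ) : ℝ) * rho l / l ≤ y e ∧ y e ≤ 1)
    (hφ : ∀ e < 3, ∀ M : ℕ, N ≤ M → M ≤ n →
      ((M / (50 * w ^ e) : ℕ) : ℝ) ^ M * y e ^ (M - 2 * l - k - M / (50 * w ^ e)) ≤ φ) :
    mu {b : Bits n | Structured m (mat b) ∧ ¬ Twins (mat b)} ≤ (1 / 4) ^ n +
      (((n : ℝ) + 1) ^ (2 * s₀) * (3 / 8) ^ a₁ + (4 ^ n * x ^ a₂ + 3 * 8 ^ n * φ)) := by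
  classical
  set X1 : Finset (Finset (Fin n) × Finset (Fin n)) :=
    univ.filter fun p => 3 ≤ p.1.card ∧ p.1.card ≤ s₀ ∧ p.2.card ≤ s₀ with hX1
  set X2 : Finset (Finset (Fin n) × Finset (Fin n)) :=
    univ.filter fun p => s₀ ≤ p.1.card ∧ p.1.card + z ≤ n ∧ p.2.card ≤ k with hX2
  set X3 : Finset (ℕ × Finset (Fin n) × Finset (Fin n) × Finset (Fin n)) :=
    (range 3 ×ˢ univ).filter fun p => p.2.2.1.card = 2 * l ∧ Disjoint p.2.1 p.2.2.1 ∧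
      N ≤ p.2.1.card + 2 * l ∧ p.2.2.2 ⊆ p.2.1 ∧
      p.2.2.2.card ≤ k + (p.2.1.card + 2 * l) / (50 * w ^ p.1) with hX3
  have hsub : {b : Bits n | Structured m (mat b) ∧ ¬ Twins (mat b)} ⊆ {b | ¬ Good k b} ∪
      ({b | ∃ p ∈ X1, b ∈ Zev p.1 p.2} ∪ ({b | ∃ p ∈ X2, b ∈ Zev p.1 p.2} ∪
        {b | ∃ p ∈ X3, b ∈ {b | ∃ π ∈ labels (p.2.1 ∪ p.2.2.1) ((p.2.1.card + 2 * l) / (50 * w ^ p.1)),
          b ∈ Fev p.2.1 p.2.2.1 p.2.2.2 π (2 * (50 * w ^ (p.1 + 1)))}})) := by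
    intro b hb
    by_cases hG : Good k b
    · right
      rcases covering b k s₀ z N (2 * l) w m hm ht hw hG hb.1 hb.2 with
        ⟨T, R, h4, h5, h6, h7⟩ | ⟨T, R, h4, h5, h6, h7⟩ | ⟨e, he, P, J, R, h4, h5, h6, h7, h8, h9⟩
      · exact Or.inl ⟨(T, R), mem_filter.2 ⟨mem_univ _, h4, h5, h6⟩, h7⟩
      · exact Or.inr (Or.inl ⟨(T, R), mem_filter.2 ⟨mem_univ _, h4, h5, h6⟩, h7⟩)
      · exact Or.inr (Or.inr ⟨(e, P, J, R), mem_filter.2
          ⟨mem_product.2 ⟨mem_range.2 he, mem_univ _⟩, h4, h5, h6, h7, h8⟩, h9⟩)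
    · exact Or.inl hG
  have e1 := mu_biUnion X1 (fun p => Zev p.1 p.2) ((3 / 8) ^ a₁) fun p hp => by
    obtain ⟨h4, h5, h6⟩ := (mem_filter.1 hp).2
    exact mu_Zev _ _ _ (rho_three _ h4) (by norm_num) _ (by omega)
  have e2 := mu_biUnion X2 (fun p => Zev p.1 p.2) (x ^ a₂) fun p hp => by
    obtain ⟨h4, h5, h6⟩ := (mem_filter.1 hp).2
    refine mu_Zev _ _ _ (rho_le_of _ _ hx0 (hx.trans ?_)) hx1 _ (by omega)
    have : (s₀ : ℝ) ≤ p.1.card := by exact_mod_cast h4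
    exact mul_le_mul_of_nonneg_left (by linarith) (sq_nonneg _)
  have e3 := mu_biUnion X3
    (fun p => {b | ∃ π ∈ labels (p.2.1 ∪ p.2.2.1) ((p.2.1.card + 2 * l) / (50 * w ^ p.1)),
      b ∈ Fev p.2.1 p.2.2.1 p.2.2.2 π (2 * (50 * w ^ (p.1 + 1)))}) φ fun p hp => by
    obtain ⟨h3, h4, h5, h6, h7, h8⟩ := mem_filter.1 hp
    have he : p.1 < 3 := mem_range.1 (mem_product.1 h3).1
    have h10 := card_le_card h7
    have h9 := mu_biUnion (labels (p.2.1 ∪ p.2.2.1) ((p.2.1.card + 2 * l) / (50 * w ^ p.1)))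
      (fun π => Fev p.2.1 p.2.2.1 p.2.2.2 π (2 * (50 * w ^ (p.1 + 1))))
      (y p.1 ^ (p.2.1.card + 2 * l - 2 * l - k - (p.2.1.card + 2 * l) / (50 * w ^ p.1)))
      fun π _ => mu_Fev _ _ _ _ _ l h5 h7 h4 hl _ (hy _ he).1 (hy _ he).2 _ (by omega)
    have h11 := card_le_univ (p.2.1 ∪ p.2.2.1)
    rw [card_labels, Nat.cast_pow] at h9
    rw [Fintype.card_fin] at h11
    rw [card_union_of_disjoint h5, h4] at h9 h11
    exact h9.trans (hφ _ he _ h6 h11)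
  have c1 : (X1.card : ℝ) ≤ ((n : ℝ) + 1) ^ (2 * s₀) := by
    have h4 : X1 ⊆ (univ.filter fun D : Finset (Fin n) => D.card ≤ s₀) ×ˢ
        (univ.filter fun D : Finset (Fin n) => D.card ≤ s₀) := by
      intro p hp
      obtain ⟨-, h5, h6⟩ := (mem_filter.1 hp).2
      exact mem_product.2 ⟨mem_filter.2 ⟨mem_univ _, h5⟩, mem_filter.2 ⟨mem_univ _, h6⟩⟩
    have h5 := card_le_card h4
    have h6 := card_small_sets (α := Fin n) s₀
    rw [Fintype.card_fin] at h6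
    rw [card_product] at h5
    have h7 : X1.card ≤ (n + 1) ^ (2 * s₀) := by
      rw [two_mul, pow_add]
      exact h5.trans (Nat.mul_le_mul h6 h6)
    exact_mod_cast h7
  have c2 : (X2.card : ℝ) ≤ 4 ^ n := by
    have : X2.card ≤ 4 ^ n := by
      refine (card_le_univ _).trans ?_
      rw [Fintype.card_prod, Fintype.card_finset, Fintype.card_fin, ← mul_pow]
      norm_num
    exact_mod_cast this
  have c3 : (X3.card : ℝ) ≤ 3 * 8 ^ n := by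
    have : X3.card ≤ 3 * 8 ^ n := by
      refine (card_filter_le _ _).trans ?_
      rw [card_product, card_range, card_univ, Fintype.card_prod, Fintype.card_prod,
        Fintype.card_finset, Fintype.card_fin, ← mul_pow, ← mul_pow]
      norm_num
    exact_mod_cast this
  refine (mu_mono hsub).trans ((mu_union _ _).trans (add_le_add (mu_not_good k hk)
    ((mu_union _ _).trans (add_le_add (e1.trans ?_) ((mu_union _ _).trans
      (add_le_add (e2.trans ?_) (e3.trans ?_)))))))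
  · exact mul_le_mul_of_nonneg_right c1 (by positivity)
  · exact mul_le_mul_of_nonneg_right c2 (by positivity)
  · exact mul_le_mul_of_nonneg_right c3 hφ0

theorem exists_cube (n : ℕ) (hn : 1 ≤ n) : ∃ w : ℕ, n < w ^ 3 ∧ w ^ 3 ≤ 8 * n := by
  have hex : ∃ w : ℕ, n < w ^ 3 := ⟨n + 1, lt_of_lt_of_le (Nat.lt_succ_self n)
    (Nat.le_self_pow (by norm_num) _)⟩
  classical
  have h1 := Nat.find_spec hex
  refine ⟨Nat.find hex, h1, ?_⟩
  have h2 : 2 ≤ Nat.find hex := by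
    by_contra h
    have h3 : Nat.find hex ^ 3 ≤ 1 ^ 3 := Nat.pow_le_pow_left (by omega) 3
    omega
  have h3 := Nat.find_min hex (show Nat.find hex - 1 < Nat.find hex by omega)
  calc Nat.find hex ^ 3 ≤ (2 * (Nat.find hex - 1)) ^ 3 := Nat.pow_le_pow_left (by omega) 3
    _ = 8 * (Nat.find hex - 1) ^ 3 := by ring
    _ ≤ 8 * n := by omega

/-- the labels cost less than the rows gain -/
theorem key_num (n Q l w e D M a : ℕ) (hn : 1 ≤ n) (hl : 1 ≤ l) (hQ : n ≤ Q * l) (hw : w ^ 3 ≤ 8 * n)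
    (hw0 : 0 < w) (hD : D * (50 * w ^ e) ≤ M) (hM : M ≤ n) (hM2 : 50 * l ≤ M) (ha : 47 * M ≤ 50 * a)
    (hn2 : (8 ^ 8 * Q ^ 9) ^ 47 * 32 ^ (6 * Q) ≤ n) (y : ℝ) (hy : y = 400 * w ^ (e + 1) / (l * √l))
    (hy1 : y ≤ 1) : (D : ℝ) ^ M * y ^ a ≤ (1 / 32) ^ n := by
  have hnr : (1 : ℝ) ≤ n := by exact_mod_cast hn
  have hlr : (1 : ℝ) ≤ l := by exact_mod_cast hl
  have hwr : (0 : ℝ) < w := by exact_mod_cast hw0
  have hs : 0 < √(l : ℝ) := Real.sqrt_pos.2 (by linarith)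
  have hy0 : 0 ≤ y := by rw [hy]; positivity
  have hDr : (D : ℝ) * (50 * w ^ e) ≤ n := by exact_mod_cast hD.trans hM
  have hDn : (D : ℝ) ≤ n := by
    have h1 : D ≤ n := le_trans (Nat.le_mul_of_pos_right _ (by positivity)) (hD.trans hM)
    exact_mod_cast h1
  have h1 : (D : ℝ) * y ≤ 8 * n * w / (l * √l) := by
    rw [hy, ← mul_div_assoc]
    refine div_le_div_of_nonneg_right ?_ (by positivity)
    calc (D : ℝ) * (400 * w ^ (e + 1)) = 8 * (D * (50 * w ^ e)) * w := by ring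
      _ ≤ 8 * n * w := by gcongr
  have h2 : ((D : ℝ) * y) ^ 6 * n ≤ 8 ^ 8 * Q ^ 9 := by
    have h3 : ((l : ℝ) * √l) ^ 6 = (l : ℝ) ^ 9 := by
      have h4 : √(l : ℝ) ^ 6 = (l : ℝ) ^ 3 := by
        rw [show 6 = 2 * 3 by norm_num, pow_mul, Real.sq_sqrt (by positivity)]
      rw [mul_pow, h4]
      ring
    have h5 : (w : ℝ) ^ 3 ≤ 8 * n := by exact_mod_cast hw
    have h6 : (n : ℝ) ≤ Q * l := by exact_mod_cast hQ
    calc ((D : ℝ) * y) ^ 6 * n ≤ (8 * n * w / (l * √l)) ^ 6 * n := by gcongr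
      _ = 8 ^ 6 * (n : ℝ) ^ 7 * ((w : ℝ) ^ 3) ^ 2 / (l : ℝ) ^ 9 := by rw [div_pow, h3]; ring
      _ ≤ 8 ^ 6 * (n : ℝ) ^ 7 * (8 * n) ^ 2 / (l : ℝ) ^ 9 := by gcongr
      _ = 8 ^ 8 * (n : ℝ) ^ 9 / (l : ℝ) ^ 9 := by ring
      _ ≤ 8 ^ 8 * ((Q : ℝ) * l) ^ 9 / (l : ℝ) ^ 9 := by gcongr
      _ = 8 ^ 8 * Q ^ 9 := by field_simp
  have h3 : (D : ℝ) ^ 50 * y ^ 47 ≤ (1 / 32) ^ Q := by
    refine (pow_le_pow_iff_left₀ (by positivity) (by positivity) (show 6 ≠ 0 by norm_num)).1 ?_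
    have h4 : ((8 : ℝ) ^ 8 * Q ^ 9) ^ 47 * 32 ^ (6 * Q) ≤ n := by exact_mod_cast hn2
    have h5 : ((1 / 32 : ℝ) ^ Q) ^ 6 * 32 ^ (6 * Q) = 1 := by
      rw [← pow_mul, mul_comm Q 6, ← mul_pow]
      norm_num
    have h6 : (0 : ℝ) < (n : ℝ) ^ 47 * 32 ^ (6 * Q) := by positivity
    refine le_of_mul_le_mul_right ?_ h6
    calc ((D : ℝ) ^ 50 * y ^ 47) ^ 6 * ((n : ℝ) ^ 47 * 32 ^ (6 * Q))
        = (((D : ℝ) * y) ^ 6 * n) ^ 47 * 32 ^ (6 * Q) * (D : ℝ) ^ 18 := by ring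
      _ ≤ ((8 : ℝ) ^ 8 * Q ^ 9) ^ 47 * 32 ^ (6 * Q) * (n : ℝ) ^ 18 := by gcongr
      _ ≤ n * (n : ℝ) ^ 18 := by gcongr
      _ = (n : ℝ) ^ 19 := by ring
      _ ≤ (n : ℝ) ^ 47 := pow_le_pow_right₀ hnr (by norm_num)
      _ = ((1 / 32 : ℝ) ^ Q) ^ 6 * 32 ^ (6 * Q) * (n : ℝ) ^ 47 := by rw [h5, one_mul]
      _ = _ := by rw [mul_assoc, mul_comm ((32 : ℝ) ^ (6 * Q))]
  have h4 : (D : ℝ) ^ M * y ^ a ≤ ((1 / 32) ^ Q) ^ l := by
    refine (pow_le_pow_iff_left₀ (by positivity) (by positivity) (show 50 ≠ 0 by norm_num)).1 ?_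
    calc ((D : ℝ) ^ M * y ^ a) ^ 50 = ((D : ℝ) ^ 50) ^ M * y ^ (50 * a) := by
          rw [mul_pow, ← pow_mul, ← pow_mul, ← pow_mul, mul_comm M 50, mul_comm a 50]
      _ ≤ ((D : ℝ) ^ 50) ^ M * y ^ (47 * M) :=
          mul_le_mul_of_nonneg_left (pow_le_pow_of_le_one hy0 hy1 ha) (by positivity)
      _ = ((D : ℝ) ^ 50 * y ^ 47) ^ M := by rw [mul_pow, pow_mul y]
      _ ≤ ((1 / 32) ^ Q) ^ M := pow_le_pow_left₀ (by positivity) h3 M
      _ ≤ ((1 / 32) ^ Q) ^ (l * 50) := pow_le_pow_of_le_one (by positivity)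
          (pow_le_one₀ (by norm_num) (by norm_num)) (by omega)
      _ = _ := pow_mul _ _ _
  refine h4.trans ?_
  rw [← pow_mul]
  exact pow_le_pow_of_le_one (by norm_num) (by norm_num) hQ

theorem upper (η : ℝ) (hη : 0 < η) : ∃ (C : ℝ) (s : ℕ), ∀ᶠ n : ℕ in atTop,
    mu {b : Bits n | Structured (η * n) (mat b) ∧ ¬ Twins (mat b)} ≤
      C * ((n : ℝ) + 1) ^ s * (3 / 8) ^ n := by
  obtain ⟨Q', hQ'⟩ := exists_nat_ge (608 / η)
  have hQ2 : 608 ≤ η * Q' := by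
    rw [div_le_iff₀ hη] at hQ'
    linarith
  have hQ0 : 0 < Q' := by
    rcases Nat.eq_zero_or_pos Q' with h | h
    · rw [h] at hQ2
      norm_num at hQ2
    · exact h
  set Q : ℕ := 2 * Q' with hQ
  set s₀ : ℕ := 256 ^ Q with hs₀
  refine ⟨5 + (8 / 3) ^ (2 * s₀), 2 * s₀, ?_⟩
  filter_upwards [eventually_ge_atTop Q', eventually_ge_atTop (2 * s₀),
    eventually_ge_atTop (Q * (3200 * Q) ^ 2),
    eventually_ge_atTop ((8 ^ 8 * Q ^ 9) ^ 47 * 32 ^ (6 * Q)), eventually_ge_atTop 1]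
    with n hn1 hn2 hn3 hn4 hn5
  set l : ℕ := n / Q' with hl
  have ht1 : 1 ≤ l := (Nat.le_div_iff_mul_le hQ0).2 (by omega)
  have ht2 : Q' * l ≤ n := Nat.mul_div_le n Q'
  have ht3 : n ≤ Q * l := by
    have h1 : n < Q' * (l + 1) := Nat.lt_mul_div_succ n hQ0
    rw [hQ]
    nlinarith
  have hQp : 0 < Q := by omega
  have ht5 : (3200 * Q) ^ 2 ≤ l := Nat.le_of_mul_le_mul_left (hn3.trans ht3) hQp
  have ht4 : 8 * n ≤ (2 * l) ^ 2 := by
    have h1 : 2 * Q ≤ l := le_trans (by nlinarith) ht5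
    nlinarith
  obtain ⟨w, hw1, hw2⟩ := exists_cube n hn5
  have hw0 : 0 < w := Nat.pos_of_ne_zero fun h => by rw [h] at hw1; omega
  have hnr : (1 : ℝ) ≤ n := by exact_mod_cast hn5
  have hlr : (1 : ℝ) ≤ l := by exact_mod_cast ht1
  have hs : 0 < √(l : ℝ) := Real.sqrt_pos.2 (by linarith)
  have hy1 : ∀ e < 3, 400 * (w : ℝ) ^ (e + 1) / (l * √l) ≤ 1 := by
    intro e he
    have h1 : w ^ (e + 1) ≤ 8 * (Q * l) :=
      (Nat.pow_le_pow_right hw0 (by omega)).trans (hw2.trans (by omega))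
    have h2 : (w : ℝ) ^ (e + 1) ≤ 8 * (Q * l) := by exact_mod_cast h1
    have h3 : (3200 * Q : ℝ) ≤ √(l : ℝ) := Real.le_sqrt_of_sq_le (by exact_mod_cast ht5)
    rw [div_le_one (by positivity)]
    nlinarith
  have hmain := upper_fin (n := n) (2 * l) s₀ (4 * l) (100 * l) l w (n - 2 * s₀) (2 * l)
    (η * n) ((1 / 16) ^ Q) ((1 / 32) ^ n) (fun e => 400 * (w : ℝ) ^ (e + 1) / (l * √l))
    (by
      have h1 : ((Q' : ℝ)) * l ≤ n := by exact_mod_cast ht2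
      push_cast
      nlinarith)
    (by omega) hw1 ht1 ht4 (by positivity) (pow_le_one₀ (by norm_num) (by norm_num))
    (by
      have h1 : ((1 / 16 : ℝ) ^ Q) ^ 2 * 256 ^ Q = 1 := by
        rw [← pow_mul, mul_comm Q 2, pow_mul, ← mul_pow]
        norm_num
      have h2 : (s₀ : ℝ) = 256 ^ Q := by rw [hs₀]; push_cast; rfl
      rw [h2, mul_add, h1]
      have : (0 : ℝ) ≤ ((1 / 16 : ℝ) ^ Q) ^ 2 * 1 := by positivity
      linarith)
    (by omega) (by omega) (by positivity)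
    (fun e he => ⟨by
      have h1 : rho l ≤ 1 / √(l : ℝ) := rho_le_of _ _ (by positivity) (by
        rw [div_pow, Real.sq_sqrt (by positivity), one_pow, div_mul_eq_mul_div, one_mul,
          le_div_iff₀ (by positivity)]
        linarith)
      calc 4 * ((2 * (50 * w ^ (e + 1)) : ℕ) : ℝ) * rho l / l
          ≤ 4 * ((2 * (50 * w ^ (e + 1)) : ℕ) : ℝ) * (1 / √(l : ℝ)) / l := by gcongr
        _ = _ := by
          push_cast
          field_simp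
          ring, hy1 e he⟩)
    fun e he M h1 h2 => by
      have h3 : M / (50 * w ^ e) * (50 * w ^ e) ≤ M := Nat.div_mul_le_self _ _
      have h4 : M / (50 * w ^ e) * 50 ≤ M :=
        le_trans (Nat.mul_le_mul_left _ (Nat.le_mul_of_pos_right _ (by positivity))) h3
      exact key_num n Q l w e _ M _ hn5 ht1 ht3 hw2 hw0 h3 h2 (by omega) (by omega) hn4 _ rfl (hy1 e he)
  have f2 : (4 : ℝ) ^ n * ((1 / 16) ^ Q) ^ (2 * l) ≤ (1 / 4) ^ n := by
    rw [← pow_mul]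
    calc (4 : ℝ) ^ n * (1 / 16) ^ (Q * (2 * l)) ≤ 4 ^ n * (1 / 16) ^ n :=
          mul_le_mul_of_nonneg_left (pow_le_pow_of_le_one (by norm_num) (by norm_num) (by nlinarith))
            (by positivity)
      _ = _ := by rw [← mul_pow]; norm_num
  have f3 : 3 * (8 : ℝ) ^ n * (1 / 32) ^ n = 3 * (1 / 4) ^ n := by
    rw [mul_assoc, ← mul_pow]
    norm_num
  have f1 : (3 / 8 : ℝ) ^ (n - 2 * s₀) = (8 / 3) ^ (2 * s₀) * (3 / 8) ^ n := by
    have h1 : (3 / 8 : ℝ) ^ n = (3 / 8) ^ (2 * s₀) * (3 / 8) ^ (n - 2 * s₀) := by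
      rw [← pow_add]
      congr 1
      omega
    rw [h1, ← mul_assoc, ← mul_pow]
    norm_num
  have f4 : (1 / 4 : ℝ) ^ n ≤ ((n : ℝ) + 1) ^ (2 * s₀) * (3 / 8) ^ n := by
    have h1 : (1 / 4 : ℝ) ^ n ≤ (3 / 8) ^ n := pow_le_pow_left₀ (by norm_num) (by norm_num) n
    have h2 : (1 : ℝ) ≤ ((n : ℝ) + 1) ^ (2 * s₀) := one_le_pow₀ (by linarith)
    calc (1 / 4 : ℝ) ^ n ≤ 1 * (3 / 8) ^ n := by rw [one_mul]; exact h1
      _ ≤ _ := mul_le_mul_of_nonneg_right h2 (by positivity)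
  rw [f1, f3] at hmain
  refine hmain.trans ?_
  have e : (5 + (8 / 3 : ℝ) ^ (2 * s₀)) * ((n : ℝ) + 1) ^ (2 * s₀) * (3 / 8) ^ n =
      5 * (((n : ℝ) + 1) ^ (2 * s₀) * (3 / 8) ^ n) +
        ((n : ℝ) + 1) ^ (2 * s₀) * ((8 / 3) ^ (2 * s₀) * (3 / 8) ^ n) := by ring
  rw [e]
  linarith

/-- the limit of the `n`-th root -/
theorem root_of (x : ℕ → ℝ) (a c C : ℝ) (s : ℕ) (ha : 0 < a) (hc : 0 < c)
    (hlo : ∀ᶠ n : ℕ in atTop, c * a ^ n ≤ x n)
    (hup : ∀ᶠ n : ℕ in atTop, x n ≤ C * ((n : ℝ) + 1) ^ s * a ^ n) :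
    Tendsto (fun n : ℕ => x n ^ (1 / (n : ℝ))) atTop (𝓝 a) := by
  have root : ∀ (d : ℝ) (n : ℕ), 0 ≤ d → 1 ≤ n → (d ^ n) ^ (1 / (n : ℝ)) = d := by
    intro d n hd hn
    rw [one_div]
    exact Real.pow_rpow_inv_natCast hd (by omega)
  rw [tendsto_order]
  constructor
  · intro b hb
    set d := max (a / 2) ((a + b) / 2) with hd
    have hd0 : 0 < d := lt_max_of_lt_left (by positivity)
    have hda : d < a := max_lt (by linarith) (by linarith)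
    have hbd : b < d := lt_max_of_lt_right (by linarith)
    have h1 : Tendsto (fun n : ℕ => (d / a) ^ n) atTop (𝓝 0) :=
      tendsto_pow_atTop_nhds_zero_of_lt_one (by positivity) ((div_lt_one ha).2 hda)
    filter_upwards [hlo, h1.eventually (gt_mem_nhds hc), eventually_ge_atTop 1] with n h2 h3 h4
    have h5 : d ^ n ≤ x n := by
      rw [div_pow, div_lt_iff₀ (by positivity)] at h3
      linarith
    calc b < d := hbd
      _ = (d ^ n) ^ (1 / (n : ℝ)) := (root d n hd0.le h4).symm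
      _ ≤ _ := Real.rpow_le_rpow (by positivity) h5 (by positivity)
  · intro b hb
    set d := (a + b) / 2 with hd
    have hd0 : 0 < d := by rw [hd]; linarith
    have hda : a < d := by rw [hd]; linarith
    have hr0 : 0 ≤ a / d := by positivity
    have hr1 : a / d < 1 := (div_lt_one hd0).2 hda
    have h0 : Tendsto (fun n : ℕ => ((n + 1 : ℕ) : ℝ) ^ s * (a / d) ^ (n + 1)) atTop (𝓝 0) :=
      (tendsto_pow_const_mul_const_pow_of_lt_one s hr0 hr1).comp (tendsto_add_atTop_nat 1)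
    have h1 := h0.const_mul (C * (d / a))
    rw [mul_zero] at h1
    filter_upwards [hlo, hup, h1.eventually (gt_mem_nhds one_pos), eventually_ge_atTop 1]
      with n h2 h3 h4 h5
    have h6 : x n ≤ d ^ n := by
      have e : C * (d / a) * (((n + 1 : ℕ) : ℝ) ^ s * (a / d) ^ (n + 1)) =
          C * ((n : ℝ) + 1) ^ s * a ^ n / d ^ n := by
        push_cast
        rw [pow_succ, div_pow]
        field_simp
      rw [e, div_lt_one (by positivity)] at h4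
      linarith
    have h7 : 0 ≤ x n := le_trans (by positivity) h2
    calc x n ^ (1 / (n : ℝ)) ≤ (d ^ n) ^ (1 / (n : ℝ)) := Real.rpow_le_rpow h7 h6 (by positivity)
      _ = d := root d n hd0.le h5
      _ < b := by rw [hd]; linarith

end Vale.Agent.N160
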